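import Vale.Agent.helper7.St.Ray

/-!
All rays together: from cells with centroids to a short list of children.
-/

open Finset

set_option linter.unusedSectionVars false

namespace Vale.Agent.helper7.St

noncomputable section

variable {ι : Type*}

/-- The bound for the path of a ray. -/
def Af (d : ℕ) : ℝ := ((d : ℝ) + 1) * Abar (d + 1)
/-- The total variation for the path of a ray. -/
def Vf (d : ℕ) : ℝ := ((d : ℝ) + 1) * Vbar (d + 1)

lemma Lbd_nonneg (n : ℕ) (hn : 1 ≤ n) : 0 ≤ Lbd n := by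
  have : 0 < gapK n := by linarith [gapK_ge n hn]
  simp only [Lbd]
  positivity

lemma Vbar_nonneg (n : ℕ) (hn : 1 ≤ n) : 0 ≤ Vbar n := by
  have : 0 < gapK n := by linarith [gapK_ge n hn]
  simp only [Vbar]
  positivity

lemma tv_zero_eq {E : Type*} [NormedAddCommGroup E] [InnerProductSpace ℝ E]
    (L : List (Seg ι E)) (h : ∀ s ∈ L, 0 ≤ s.dur) :
    (L.map (fun s => ‖s.dur • s.w‖)).sum = tv 0 L := by
  induction L with
  | nil => simp
  | cons s L ih =>
    simp only [List.map_cons, List.sum_cons, tv_cons, sub_zero]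
    rw [ih (fun y hy => h y (List.mem_cons_of_mem _ hy)), norm_smul, Real.norm_eq_abs,
      abs_of_nonneg (h s List.mem_cons_self)]

/-- Prefixes of a mapped list. -/
lemma prefix_map_lift {β γ : Type*} (F : β → γ) (B : List β) (pre : List γ)
    (h : pre <+: B.map F) : ∃ pre' : List β, pre' <+: B ∧ pre = pre'.map F := by
  refine ⟨B.take pre.length, List.take_prefix _ _, ?_⟩
  rw [List.map_take]
  exact List.prefix_iff_eq_take.mp h

/-- The conditions on a child. -/
def ChildOK {d : ℕ} {α : Type*} (f : α → Sp d) (I : ℝ) (B : List α) : Prop :=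
  ‖(B.map f).sum‖ ≤ 1 ∧ ∀ pre : List α, pre <+: B → ‖(pre.map f).sum‖ ≤ I

/-- The children of one ray. -/
theorem ray_step {d : ℕ} {α : Type*} [DecidableEq ι] (f : α → Sp d) (S : Finset ι) (v : ι → Sp d)
    (Q0 : ι → List α) (ξ : ℝ) (hv : ∀ c ∈ S, ‖v c‖ ≤ 1) (hf : ∀ c ∈ S, ∀ x ∈ Q0 c, ‖f x‖ ≤ 1)
    (hξ : ∀ c ∈ S, ∀ Y : List α, Y <:+: Q0 c → ‖(Y.map f).sum - (Y.length : ℝ) • v c‖ ≤ ξ)
    (hξd : ((d : ℝ) + 1) * ξ ≤ 1 / 4) (hξ0 : 0 ≤ ξ)
    (r : ι → ℝ) (Q : ι → List α) (hr0 : ∀ c ∈ S, 0 ≤ r c)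
    (hSr : (S.filter (fun c => r c ≠ 0)).card ≤ d + 1) (hsumr : ∑ c ∈ S, r c • v c = 0)
    (hQ : ∀ c ∈ S, Q c <:+ Q0 c) (hrQ : ∀ c ∈ S, r c ≤ (Q c).length) :
    ∃ (Ch : List (List α)) (Q' : ι → List α),
      Ch.length ≤ 2 * nlab d (Af d) (Vf d) ∧
      (∀ B ∈ Ch, ChildOK f (2 * Real.sqrt (Af d) + 1) B) ∧
      (∀ c, Q' c <:+ Q c) ∧
      (∀ c ∈ S, ((Q c).length : ℝ) - (Q' c).length ≤ r c ∧
        r c - (((Q c).length : ℝ) - (Q' c).length) ≤ Lbd (d + 1)) ∧
      ((Ch.flatten : List α) : Multiset α) + ∑ c ∈ S, ((Q' c : List α) : Multiset α) =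
        ∑ c ∈ S, ((Q c : List α) : Multiset α) := by
  classical
  set Sr := S.filter (fun c => r c ≠ 0) with hSrdef
  have hSrS : Sr ⊆ S := Finset.filter_subset _ _
  have hrpos : ∀ j ∈ Sr, 0 < r j := by
    intro j hj
    obtain ⟨h1, h2⟩ := Finset.mem_filter.mp hj
    exact lt_of_le_of_ne (hr0 j h1) (Ne.symm h2)
  have hn : 1 ≤ d + 1 := by omega
  obtain ⟨L, TS, hI⟩ := few (d + 1) hn v r Sr hSr (fun j hj => hv j (hSrS hj)) hrpos
  have hW : ∑ j ∈ Sr, r j • v j = 0 := by
    have e : ∑ c ∈ Sr, r c • v c = ∑ c ∈ S, r c • v c := by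
      rw [hSrdef, Finset.sum_filter]
      refine Finset.sum_congr rfl (fun c _ => ?_)
      by_cases hc : r c = 0
      · simp [hc]
      · simp [hc]
    rw [e, hsumr]
  have hSr' : (Sr.card : ℝ) ≤ (d : ℝ) + 1 := by exact_mod_cast hSr
  have hVb := Vbar_nonneg (d + 1) hn
  have hAb := Abar_pos (d + 1) hn
  have htv : tv 0 L ≤ Vf d := by
    have h1 := hI.tvle
    rw [hW, norm_zero, mul_zero, add_zero] at h1
    have h2 := mul_le_mul_of_nonneg_right hSr' hVb
    simp only [Vf]
    linarith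
  have hdur : ∀ s ∈ L, 0 ≤ s.dur := by
    intro s hs
    set M := 1 + ∑ j ∈ Sr, r j with hM
    have hsum0 : 0 ≤ ∑ j ∈ Sr, r j := Finset.sum_nonneg (fun j hj => (hrpos j hj).le)
    have hM0 : 0 < M := by simp only [hM]; linarith
    have hle : ∀ j ∈ Sr, r j ≤ M := by
      intro j hj
      have := Finset.single_le_sum (fun i hi => (hrpos i hi).le) hj
      simp only [hM]
      linarith
    have h1 := hI.lower M hM0 hle s hs
    have h2 := epsb_pos (d + 1) hn
    have h3 : (0 : ℝ) < ((d + 1 : ℕ) : ℝ) := by positivity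
    have h4 : 0 < epsb (d + 1) / (2 * ((d + 1 : ℕ) : ℝ) * M) := by positivity
    linarith
  have hTV : (L.map (fun s => ‖s.dur • s.w‖)).sum ≤ Vf d := by
    rw [tv_zero_eq L hdur]
    exact htv
  set A := (Sr.card : ℝ) * Abar (d + 1) with hA
  have hA0 : 0 ≤ A := mul_nonneg (Nat.cast_nonneg _) hAb.le
  have hAAf : A ≤ Af d := mul_le_mul_of_nonneg_right hSr' hAb.le
  obtain ⟨Z0, hZ01, hZ02, hZ03⟩ := conv_list v A L 0 0 (by simpa using hA0)
    (by simpa using hI.bdd)
  have htagsmem : ∀ j ∈ tags L, j ∈ Sr := hI.tagsS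
  have hcount0 : ∀ j, j ∉ Sr → (tags L).count j = 0 := fun j hj =>
    List.count_eq_zero_of_not_mem (fun h => hj (htagsmem j h))
  have hcountQ : ∀ j, (Z0.map Prod.fst).count j ≤ (Q j).length := by
    intro j
    rw [hZ01]
    by_cases hj : j ∈ Sr
    · have h1 := (hI.count j hj).1
      have h2 := hrQ j (hSrS hj)
      have h3 : (((tags L).count j : ℕ) : ℝ) ≤ ((Q j).length : ℝ) := h1.trans h2
      exact_mod_cast h3
    · rw [hcount0 j hj]
      exact Nat.zero_le _
  obtain ⟨Z, Q', hZ1, hZ2⟩ := instantiate (α := α) Z0 Q hcountQ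
  let tag : α × ι × Sp d → ι := fun b => b.2.1
  have hmaptag : Z.map tag = tags L := by
    rw [← hZ01, ← hZ1, List.map_map]
    rfl
  have hZtag : ∀ b ∈ Z, tag b ∈ Sr := by
    intro b hb
    apply htagsmem
    rw [← hmaptag]
    exact List.mem_map_of_mem hb
  have hfilterlen : ∀ j, (Z.filter (fun b => tag b = j)).length = (tags L).count j := by
    intro j
    rw [length_filter_tag, hmaptag]
  let y : α × ι × Sp d → Sp d := fun b => v b.2.1
  let g : α × ι × Sp d → Sp d := fun b => b.2.2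
  let F : α × ι × Sp d → Sp d := fun b => f b.1
  have hitem : ∀ b ∈ Z, b.1 ∈ Q (tag b) := by
    intro b hb
    rw [hZ2 (tag b)]
    refine List.mem_append_left _ ?_
    exact List.mem_map_of_mem (List.mem_filter.mpr ⟨hb, by simp [tag]⟩)
  have H1 : ∀ pre, pre <+: Z → ‖(pre.map (fun b => y b - g b)).sum‖ ^ 2 ≤ Af d := by
    intro pre hpre
    have h1 : pre.map Prod.snd <+: Z0 := by
      rw [← hZ1]
      exact hpre.map _
    have h2 := hZ02 _ h1
    rw [List.map_map, zero_add] at h2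
    exact h2.trans hAAf
  have H2 : (Z.map (fun b => ‖g b‖)).sum ≤ Vf d := by
    have h1 : (Z.map (fun b => ‖g b‖)) = Z0.map (fun z => ‖z.2‖) := by
      rw [← hZ1, List.map_map]
      rfl
    rw [h1]
    simpa using hZ03.trans (by simpa using hTV)
  have H3 : ∀ pre, pre <+: Z → ‖(pre.map (fun b => F b - y b)).sum‖ ≤ 1 / 4 := by
    intro pre hpre
    have hpretag : ∀ b ∈ pre, tag b ∈ Sr := fun b hb => hZtag b (hpre.subset hb)
    rw [sum_by_tag tag (fun b => F b - y b) Sr pre hpretag]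
    have hterm : ∀ j ∈ Sr, ‖((pre.filter (fun b => tag b = j)).map (fun b => F b - y b)).sum‖ ≤ ξ := by
      intro j hj
      set P := pre.filter (fun b => tag b = j) with hP
      have h1 : P.map (fun b => F b - y b) = P.map (fun b => F b - v j) := by
        refine List.map_congr_left (fun b hb => ?_)
        have : tag b = j := by simpa using (List.mem_filter.mp hb).2
        simp only [y]
        rw [← this]
      have h2 : (P.map (fun b => F b - v j)).sum = ((P.map Prod.fst).map f).sum -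
          ((P.map Prod.fst).length : ℝ) • v j := by
        rw [map_sub_const_sum, List.map_map, List.length_map]
        rfl
      rw [h1, h2]
      refine hξ j (hSrS hj) _ ?_
      have h3 : P.map Prod.fst <+: Q j := by
        rw [hZ2 j]
        refine List.IsPrefix.trans ?_ (List.prefix_append _ _)
        exact (hpre.filter _).map _
      exact h3.isInfix.trans (hQ j (hSrS hj)).isInfix
    calc _ ≤ ∑ j ∈ Sr, ‖((pre.filter (fun b => tag b = j)).map (fun b => F b - y b)).sum‖ :=
          norm_sum_le _ _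
      _ ≤ ∑ _j ∈ Sr, ξ := Finset.sum_le_sum hterm
      _ = (Sr.card : ℝ) * ξ := by simp
      _ ≤ ((d : ℝ) + 1) * ξ := mul_le_mul_of_nonneg_right hSr' hξ0
      _ ≤ 1 / 4 := hξd
  have H4 : ∀ b ∈ Z, ‖F b‖ ≤ 1 := by
    intro b hb
    have h1 := hZtag b hb
    exact hf (tag b) (hSrS h1) b.1 ((hQ (tag b) (hSrS h1)).subset (hitem b hb))
  obtain ⟨bl, hbl1, hbl2, hbl3⟩ := path_blocks Z y g F (Af d) (Vf d) (1 / 4) le_rfl H1 H2 H3 H4
  have hflat : (bl.map (List.map Prod.fst)).flatten = Z.map Prod.fst := by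
    rw [← hbl1, List.map_flatten]
  refine ⟨bl.map (List.map Prod.fst), Q', by simpa using hbl2, ?_, ?_, ?_, ?_⟩
  · intro B hB
    obtain ⟨B0, hB0, rfl⟩ := List.mem_map.mp hB
    obtain ⟨h1, h2⟩ := hbl3 B0 hB0
    constructor
    · rw [List.map_map]
      exact h1
    · intro pre hpre
      obtain ⟨pre', hp1, rfl⟩ := prefix_map_lift _ _ _ hpre
      rw [List.map_map]
      exact h2 pre' hp1
  · intro c
    rw [hZ2 c]
    exact List.suffix_append _ _
  · intro c hc
    have hlen : ((Q c).length : ℝ) - (Q' c).length = ((tags L).count c : ℕ) := by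
      have h1 := congrArg List.length (hZ2 c)
      rw [List.length_append, List.length_map, hfilterlen] at h1
      rw [h1]
      push_cast
      ring
    rw [hlen]
    by_cases hcr : c ∈ Sr
    · exact hI.count c hcr
    · have h0 : r c = 0 := by
        by_contra hne
        exact hcr (Finset.mem_filter.mpr ⟨hc, hne⟩)
      rw [hcount0 c hcr, h0]
      simpa using Lbd_nonneg (d + 1) hn
  · rw [hflat, coe_by_tag tag Prod.fst S Z (fun b hb => hSrS (hZtag b hb)), ← Finset.sum_add_distrib]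
    refine Finset.sum_congr rfl (fun c _ => ?_)
    conv_rhs => rw [hZ2 c]
    rw [Multiset.coe_add]

/-- All rays. -/
theorem process {d : ℕ} {α : Type*} [DecidableEq ι] (f : α → Sp d) (S : Finset ι) (v : ι → Sp d)
    (Q0 : ι → List α) (ξ : ℝ) (hv : ∀ c ∈ S, ‖v c‖ ≤ 1) (hf : ∀ c ∈ S, ∀ x ∈ Q0 c, ‖f x‖ ≤ 1)
    (hξ : ∀ c ∈ S, ∀ Y : List α, Y <:+: Q0 c → ‖(Y.map f).sum - (Y.length : ℝ) • v c‖ ≤ ξ)
    (hξd : ((d : ℝ) + 1) * ξ ≤ 1 / 4) (hξ0 : 0 ≤ ξ) :
    ∀ (k : ℕ) (m : ι → ℝ) (Q : ι → List α) (Ē : ℝ), (S.filter (fun c => m c ≠ 0)).card ≤ k →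
      (∀ c ∈ S, 0 ≤ m c) → ∑ c ∈ S, m c • v c = 0 → (∀ c ∈ S, Q c <:+ Q0 c) →
      (∀ c ∈ S, m c ≤ (Q c).length ∧ ((Q c).length : ℝ) ≤ m c + Ē) → 0 ≤ Ē →
      ∃ Ch : List (List α),
        ((Ch.flatten : List α) : Multiset α) = ∑ c ∈ S, ((Q c : List α) : Multiset α) ∧
        (Ch.length : ℝ) ≤ (k : ℝ) * (2 * (nlab d (Af d) (Vf d) : ℝ)) +
          (S.card : ℝ) * (Ē + (k : ℝ) * Lbd (d + 1)) ∧
        ∀ B ∈ Ch, ChildOK f (2 * Real.sqrt (Af d) + 1) B := by
  classical
  have hn : 1 ≤ d + 1 := by omega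
  have hLb := Lbd_nonneg (d + 1) hn
  have hAf0 : 0 ≤ 2 * Real.sqrt (Af d) := by positivity
  intro k
  induction k with
  | zero =>
    intro m Q Ē hcard hm0 _ hQ hmQ hĒ
    have hm : ∀ c ∈ S, m c = 0 := by
      intro c hc
      by_contra hne
      have : c ∈ S.filter (fun c => m c ≠ 0) := Finset.mem_filter.mpr ⟨hc, hne⟩
      have h2 := Finset.card_pos.mpr ⟨c, this⟩
      omega
    set all : Multiset α := ∑ c ∈ S, ((Q c : List α) : Multiset α) with hall
    refine ⟨all.toList.map (fun x => [x]), ?_, ?_, ?_⟩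
    · have : (all.toList.map (fun x => [x])).flatten = all.toList := by
        clear_value all
        induction all.toList with
        | nil => simp
        | cons a t ih => simp [ih]
      rw [this, Multiset.coe_toList]
    · simp only [List.length_map, Multiset.length_toList, CharP.cast_eq_zero, zero_mul, zero_add,
        add_zero]
      have hc : (Multiset.card all : ℝ) = ∑ c ∈ S, ((Q c).length : ℝ) := by
        rw [hall, Multiset.card_sum]
        push_cast
        simp
      rw [hc]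
      calc ∑ c ∈ S, ((Q c).length : ℝ) ≤ ∑ _c ∈ S, Ē := by
            refine Finset.sum_le_sum (fun c hc' => ?_)
            have := (hmQ c hc').2
            rw [hm c hc'] at this
            linarith
        _ = (S.card : ℝ) * Ē := by simp
    · intro B hB
      obtain ⟨x, hx, rfl⟩ := List.mem_map.mp hB
      have hxall : x ∈ all := Multiset.mem_toList.mp hx
      obtain ⟨c, hc, hxc⟩ := Multiset.mem_sum.mp hxall
      have hxn : ‖f x‖ ≤ 1 := hf c hc x ((hQ c hc).subset (by simpa using hxc))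
      constructor
      · simpa using hxn
      · intro pre hpre
        rcases (List.prefix_cons_iff.mp hpre) with rfl | ⟨t, rfl, ht⟩
        · simp only [List.map_nil, List.sum_nil, norm_zero]
          linarith
        · have : t = [] := List.prefix_nil.mp ht
          subst this
          simp only [List.map_cons, List.map_nil, List.sum_cons, List.sum_nil, add_zero]
          linarith
  | succ k ih =>
    intro m Q Ē hcard hm0 hsum hQ hmQ hĒ
    rcases (S.filter (fun c => m c ≠ 0)).eq_empty_or_nonempty with hemp | hne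
    · -- no more rays are needed
      obtain ⟨Ch, h1, h2, h3⟩ := ih m Q Ē (by rw [hemp]; simp) hm0 hsum hQ hmQ hĒ
      refine ⟨Ch, h1, ?_, h3⟩
      have h4 : (0 : ℝ) ≤ 2 * (nlab d (Af d) (Vf d) : ℝ) := by positivity
      have h5 : (0 : ℝ) ≤ (S.card : ℝ) := by positivity
      have h6 : (k : ℝ) * Lbd (d + 1) ≤ ((k + 1 : ℕ) : ℝ) * Lbd (d + 1) := by
        refine mul_le_mul_of_nonneg_right ?_ hLb
        push_cast
        linarith
      have h7 := mul_le_mul_of_nonneg_left h6 h5
      push_cast at *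
      nlinarith
    · obtain ⟨r, hr1, hr2, hr3, hr4⟩ := exists_ray S v m hm0 hsum hne
      obtain ⟨Ch1, Q', h1, h2, h3, h4, h5⟩ := ray_step f S v Q0 ξ hv hf hξ hξd hξ0 r Q
        (fun c hc => (hr1 c hc).1) hr3 hr2 hQ
        (fun c hc => (hr1 c hc).2.trans (hmQ c hc).1)
      obtain ⟨Ch2, e1, e2, e3⟩ := ih (fun c => m c - r c) Q' (Ē + Lbd (d + 1)) (by omega)
        (fun c hc => sub_nonneg.mpr (hr1 c hc).2)
        (by
          simp only [sub_smul]
          rw [Finset.sum_sub_distrib, hsum, hr2, sub_zero])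
        (fun c hc => (h3 c).trans (hQ c hc))
        (by
          intro c hc
          obtain ⟨a1, a2⟩ := h4 c hc
          obtain ⟨a3, a4⟩ := hmQ c hc
          constructor
          · linarith
          · linarith)
        (by linarith)
      refine ⟨Ch1 ++ Ch2, ?_, ?_, ?_⟩
      · rw [List.flatten_append, ← Multiset.coe_add, e1, h5]
      · rw [List.length_append]
        push_cast
        have h6 : (Ch1.length : ℝ) ≤ 2 * (nlab d (Af d) (Vf d) : ℝ) := by exact_mod_cast h1
        have e4 : (S.card : ℝ) * (Ē + Lbd (d + 1) + (k : ℝ) * Lbd (d + 1)) =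
            (S.card : ℝ) * (Ē + ((k : ℝ) + 1) * Lbd (d + 1)) := by ring
        rw [e4] at e2
        have e5 : ((k : ℝ) + 1) * (2 * (nlab d (Af d) (Vf d) : ℝ)) =
            (k : ℝ) * (2 * (nlab d (Af d) (Vf d) : ℝ)) + 2 * (nlab d (Af d) (Vf d) : ℝ) := by ring
        linarith
      · intro B hB
        rcases List.mem_append.mp hB with hB | hB
        · exact h2 B hB
        · exact e3 B hB

end

end Vale.Agent.helper7.St
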