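import Vale.Agent.helper7.St.Level

/-!
Few types: the path for a finite set of types with arbitrary rates.
-/

open Finset

set_option linter.unusedSectionVars false

namespace Vale.Agent.helper7.St

noncomputable section

variable {E : Type*} [NormedAddCommGroup E] [InnerProductSpace ℝ E] {ι : Type*}

/-- Clusters of rates. -/
lemma exists_cluster [DecidableEq ι] (a : ι → ℝ) (K : ℝ) (hK : 1 ≤ K) :
    ∀ S : Finset ι, S.Nonempty → (∀ j ∈ S, 0 < a j) →
      ∃ C ⊆ S, C.Nonempty ∧ (∀ j ∈ C, ∀ i ∈ S \ C, K * a i ≤ a j) ∧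
        ∀ i ∈ C, ∀ j ∈ C, a i ≤ K ^ C.card * a j := by
  intro S
  induction S using Finset.strongInduction with
  | H S ih =>
    intro hS hpos
    obtain ⟨i0, hi0, hmin⟩ := S.exists_min_image a hS
    have hK0 : 0 < K := by linarith
    have hpow1 : ∀ m : ℕ, 1 ≤ K ^ m := fun m => one_le_pow₀ hK
    set S1 := S.erase i0 with hS1
    have hS1ss : S1 ⊂ S := Finset.erase_ssubset hi0
    rcases S1.eq_empty_or_nonempty with hE | hNE
    · refine ⟨S, subset_rfl, hS, by simp, ?_⟩
      have hS' : ∀ x ∈ S, x = i0 := by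
        intro x hx
        by_contra hne
        have : x ∈ S1 := Finset.mem_erase.mpr ⟨hne, hx⟩
        rw [hE] at this
        simp at this
      intro i hi j hj
      rw [hS' i hi, hS' j hj]
      have h1 := hpow1 S.card
      have h2 := hpos i0 hi0
      nlinarith
    · obtain ⟨C1, hC1S, hC1ne, hgap, hrat⟩ := ih S1 hS1ss hNE
        (fun j hj => hpos j (Finset.mem_of_mem_erase hj))
      by_cases hcase : ∀ j ∈ C1, K * a i0 ≤ a j
      · refine ⟨C1, hC1S.trans (Finset.erase_subset _ _), hC1ne, ?_, hrat⟩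
        intro j hj i hi
        rw [Finset.mem_sdiff] at hi
        by_cases hii : i = i0
        · rw [hii]
          exact hcase j hj
        · exact hgap j hj i (Finset.mem_sdiff.mpr ⟨Finset.mem_erase.mpr ⟨hii, hi.1⟩, hi.2⟩)
      · push Not at hcase
        obtain ⟨j1, hj1, hj1lt⟩ := hcase
        have hC1eq : C1 = S1 := by
          refine Finset.Subset.antisymm hC1S ?_
          intro i hi
          by_contra hnot
          have h1 := hgap j1 hj1 i (Finset.mem_sdiff.mpr ⟨hi, hnot⟩)
          have h2 := hmin i (Finset.mem_of_mem_erase hi)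
          have h3 : K * a i0 ≤ K * a i := mul_le_mul_of_nonneg_left h2 hK0.le
          linarith
        have hcard : S.card = C1.card + 1 := by
          rw [hC1eq, hS1, Finset.card_erase_of_mem hi0]
          have : 0 < S.card := Finset.card_pos.mpr hS
          omega
        refine ⟨S, subset_rfl, hS, by simp, ?_⟩
        intro i hi j hj
        rw [hcard]
        have hj0 : 0 < a j := hpos j hj
        by_cases hii : i = i0
        · rw [hii]
          have h1 := hpow1 (C1.card + 1)
          have h2 := hmin j hj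
          nlinarith
        · have hiC : i ∈ C1 := by
            rw [hC1eq]
            exact Finset.mem_erase.mpr ⟨hii, hi⟩
          have hpow : K ^ (C1.card + 1) = K ^ C1.card * K := pow_succ _ _
          have hKp0 : 0 < K ^ C1.card := by positivity
          by_cases hjj : j = i0
          · rw [hjj]
            have h1 := hrat i hiC j1 hj1
            have h2 : K ^ C1.card * a j1 ≤ K ^ C1.card * (K * a i0) :=
              mul_le_mul_of_nonneg_left hj1lt.le hKp0.le
            rw [hpow]
            nlinarith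
          · have hjC : j ∈ C1 := by
              rw [hC1eq]
              exact Finset.mem_erase.mpr ⟨hjj, hj⟩
            have h1 := hrat i hiC j hjC
            rw [hpow]
            have h2 : K ^ C1.card * a j ≤ K ^ C1.card * K * a j := by
              have : K ^ C1.card * a j * 1 ≤ K ^ C1.card * a j * K :=
                mul_le_mul_of_nonneg_left hK (by positivity)
              nlinarith
            linarith

/-- The small parameter. -/
def epsb (n : ℕ) : ℝ := 1 / (1000 * (n : ℝ))
/-- The gap between clusters. -/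
def gapK (n : ℕ) : ℝ := 8000 * (n : ℝ) ^ 2
/-- The cost of a type. -/
def Abar (n : ℕ) : ℝ := 4800 * Real.log (gapK n) + 20000
/-- The total variation allowance of a type. -/
def Vbar (n : ℕ) : ℝ := 8 * gapK n ^ n
/-- The allowance for left over jumps. -/
def Lbd (n : ℕ) : ℝ := 8 * gapK n ^ n + 1

lemma gapK_ge (n : ℕ) (hn : 1 ≤ n) : 8000 ≤ gapK n := by
  have h : (1 : ℝ) ≤ n := by exact_mod_cast hn
  simp only [gapK]
  nlinarith

lemma epsb_gapK (n : ℕ) (hn : 1 ≤ n) : epsb n * gapK n = 8 * n := by
  have h : (0 : ℝ) < n := by exact_mod_cast hn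
  simp only [epsb, gapK]
  field_simp
  norm_num

lemma epsb_pos (n : ℕ) (hn : 1 ≤ n) : 0 < epsb n := by
  have h : (0 : ℝ) < n := by exact_mod_cast hn
  simp only [epsb]
  positivity

lemma epsb_le (n : ℕ) (hn : 1 ≤ n) : epsb n ≤ 1 / 4 := by
  have h : (1 : ℝ) ≤ n := by exact_mod_cast hn
  simp only [epsb]
  rw [div_le_div_iff₀ (by positivity) (by norm_num)]
  nlinarith

lemma log_gapK_nonneg (n : ℕ) (hn : 1 ≤ n) : 0 ≤ Real.log (gapK n) :=
  Real.log_nonneg (by linarith [gapK_ge n hn])

lemma Abar_pos (n : ℕ) (hn : 1 ≤ n) : 0 < Abar n := by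
  have := log_gapK_nonneg n hn
  simp only [Abar]
  linarith

lemma log_two_le : Real.log 2 ≤ 0.6932 := by
  have := Real.log_two_lt_d9
  linarith

lemma log_natCast_le_sub (m : ℕ) (hm : 1 ≤ m) : Real.log (m : ℝ) ≤ (m : ℝ) - 1 := by
  have h : (0 : ℝ) < m := by exact_mod_cast hm
  exact Real.log_le_sub_one_of_pos h

/-- Bound for the cost of a type in terms of `n`. -/
lemma Abar_le (n : ℕ) (hn : 1 ≤ n) : Abar n ≤ 64000 * (n : ℝ) := by
  have h : (1 : ℝ) ≤ n := by exact_mod_cast hn
  have h0 : (0 : ℝ) < n := by linarith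
  have hlog : Real.log (gapK n) = Real.log 8000 + 2 * Real.log n := by
    simp only [gapK]
    rw [Real.log_mul (by norm_num) (by positivity), Real.log_pow]
    norm_num
  have h8000 : Real.log 8000 ≤ 13 * Real.log 2 := by
    have : (8000 : ℝ) ≤ 2 ^ 13 := by norm_num
    have h1 := Real.log_le_log (by norm_num) this
    rw [Real.log_pow] at h1
    exact_mod_cast h1
  have h2 := log_two_le
  have h3 := log_natCast_le_sub n hn
  simp only [Abar]
  rw [hlog]
  nlinarith

lemma eps_A (n m : ℕ) (hn : 1 ≤ n) (hm : m ≤ n) : epsb n ^ 2 * ((m : ℝ) * Abar n) ≤ 1 / 4 := by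
  have h : (1 : ℝ) ≤ n := by exact_mod_cast hn
  have h0 : (0 : ℝ) < n := by linarith
  have hm' : (m : ℝ) ≤ n := by exact_mod_cast hm
  have hA := Abar_le n hn
  have hA0 := Abar_pos n hn
  have h1 : (m : ℝ) * Abar n ≤ (n : ℝ) * (64000 * n) :=
    mul_le_mul hm' hA hA0.le h0.le
  have h2 : epsb n ^ 2 * ((n : ℝ) * (64000 * n)) = 64000 / 1000000 := by
    simp only [epsb]
    field_simp
    norm_num
  have h3 := mul_le_mul_of_nonneg_left h1 (sq_nonneg (epsb n))
  rw [h2] at h3
  linarith

/-- The cost of one cluster. -/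
lemma cost_le (n k : ℕ) (hn : 1 ≤ n) (hk : 1 ≤ k) :
    3 / 4 * (k : ℝ) + 27 + 96 * (50 * Real.log (12 * ((k : ℝ) * gapK n ^ k)) + 18 * (k : ℝ)) ≤
      (k : ℝ) * Abar n := by
  have hk1 : (1 : ℝ) ≤ k := by exact_mod_cast hk
  have hk0 : (0 : ℝ) < k := by linarith
  have hK0 : 0 < gapK n := by linarith [gapK_ge n hn]
  have hlog : Real.log (12 * ((k : ℝ) * gapK n ^ k)) =
      Real.log 12 + Real.log k + (k : ℝ) * Real.log (gapK n) := by
    rw [Real.log_mul (by norm_num) (by positivity), Real.log_mul hk0.ne' (by positivity),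
      Real.log_pow]
    ring
  have h12 : Real.log 12 ≤ 4 * Real.log 2 := by
    have h1 := Real.log_le_log (x := 12) (y := 2 ^ 4) (by norm_num) (by norm_num)
    rw [Real.log_pow] at h1
    exact_mod_cast h1
  have h2 := log_two_le
  have h3 := log_natCast_le_sub k hk
  have hL := log_gapK_nonneg n hn
  rw [hlog]
  simp only [Abar]
  nlinarith

lemma aux_eps1 (n : ℕ) (hn : 1 ≤ n) {amin : ℝ} (ha : 0 < amin) :
    8 / amin * ((n : ℝ) * (amin / gapK n)) = epsb n := by
  have h : (0 : ℝ) < n := by exact_mod_cast hn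
  simp only [epsb, gapK]
  field_simp
  norm_num

lemma aux_eps2 (n : ℕ) (hn : 1 ≤ n) {amin : ℝ} (ha : 0 < amin) :
    epsb n / (2 * (n : ℝ) * (amin / gapK n)) = 4 / amin := by
  have h : (0 : ℝ) < n := by exact_mod_cast hn
  simp only [epsb, gapK]
  field_simp
  norm_num

/-- The invariant of the construction. -/
structure Inv [DecidableEq ι] (n : ℕ) (u : ι → E) (a : ι → ℝ) (S : Finset ι) (L : List (Seg ι E)) (TS : ℝ) :
    Prop where
  bdd : Bdd u ((S.card : ℝ) * Abar n) 0 L
  dur : sumDur L = TS
  T0 : 0 ≤ TS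
  T1 : TS ≤ 1
  tagsS : ∀ j ∈ tags L, j ∈ S
  lower : ∀ M : ℝ, 0 < M → (∀ j ∈ S, a j ≤ M) → ∀ s ∈ L, epsb n / (2 * (n : ℝ) * M) ≤ s.dur
  wle : ∀ s ∈ L, ‖s.w‖ ≤ ∑ j ∈ S, a j
  left : (L = [] ∧ TS = 0) ∨ ∀ M : ℝ, 0 < M → (∀ j ∈ S, a j ≤ M) → 4 / M ≤ 1 - TS
  count : ∀ j ∈ S, (((tags L).count j : ℕ) : ℝ) ≤ a j ∧
    a j - ((tags L).count j : ℕ) ≤ Lbd n
  tvle : tv (∑ j ∈ S, a j • u j) L + (1 - TS) * ‖∑ j ∈ S, a j • u j‖ ≤ (S.card : ℝ) * Vbar n

lemma Bdd_end (u : ι → E) (A : ℝ) (L : List (Seg ι E)) :
    ∀ x : E, ‖x‖ ^ 2 ≤ A → Bdd u A x L → ‖endv u x L‖ ^ 2 ≤ A := by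
  induction L with
  | nil => intro x hx _; simpa using hx
  | cons s L ih =>
    intro x _ hB
    rw [endv_cons]
    exact ih _ hB.2.1 hB.2.2

lemma norm_delta_le (C : Finset ι) (u : ι → E) (a : ι → ℝ) (hu : ∀ j ∈ C, ‖u j‖ ≤ 1)
    (ha : ∀ j ∈ C, 0 ≤ a j) : ‖∑ j ∈ C, a j • u j‖ ≤ ∑ j ∈ C, a j := by
  refine (norm_sum_le _ _).trans (Finset.sum_le_sum fun j hj => ?_)
  rw [norm_smul, Real.norm_eq_abs, abs_of_nonneg (ha j hj)]
  have := mul_le_mul_of_nonneg_left (hu j hj) (ha j hj)
  linarith

/-- One step of the construction. -/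
lemma inv_step [DecidableEq ι] (n : ℕ) (hn : 1 ≤ n) (S C : Finset ι) (hdisj : Disjoint S C)
    (hcard : S.card + C.card ≤ n) (hC : C.Nonempty) (u : ι → E) (a : ι → ℝ)
    (hu : ∀ j ∈ S ∪ C, ‖u j‖ ≤ 1) (ha : ∀ j ∈ S ∪ C, 0 < a j)
    (hgap : ∀ j ∈ C, ∀ i ∈ S, gapK n * a i ≤ a j)
    (hratio : ∀ i ∈ C, ∀ j ∈ C, a i ≤ gapK n ^ C.card * a j)
    (L : List (Seg ι E)) (TS : ℝ) (hI : Inv n u a S L TS) :
    ∃ L' TS', Inv n u a (S ∪ C) L' TS' := by
  classical
  obtain ⟨j0, hj0, hmin⟩ := C.exists_min_image a hC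
  have huC : ∀ j ∈ C, ‖u j‖ ≤ 1 := fun j hj => hu j (mem_union_right _ hj)
  have huS : ∀ j ∈ S, ‖u j‖ ≤ 1 := fun j hj => hu j (mem_union_left _ hj)
  have haC : ∀ j ∈ C, 0 < a j := fun j hj => ha j (mem_union_right _ hj)
  have haS : ∀ j ∈ S, 0 < a j := fun j hj => ha j (mem_union_left _ hj)
  set amin := a j0 with hamindef
  have hamin : 0 < amin := haC j0 hj0
  set K := gapK n with hK
  have hK8 : 8000 ≤ K := gapK_ge n hn
  have hK0 : 0 < K := by linarith
  have hn1 : (1 : ℝ) ≤ n := by exact_mod_cast hn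
  have hn0 : (0 : ℝ) < n := by linarith
  set k := C.card with hk
  have hk1 : 1 ≤ k := Finset.card_pos.mpr hC
  have hk1' : (1 : ℝ) ≤ k := by exact_mod_cast hk1
  have hkn : k ≤ n := by omega
  have hkn' : (k : ℝ) ≤ n := by exact_mod_cast hkn
  have hSn : S.card ≤ n := by omega
  have hSn' : (S.card : ℝ) ≤ n := by exact_mod_cast hSn
  have hKpow : K ^ k ≤ K ^ n := pow_le_pow_right₀ (by linarith) hkn
  have hKpow0 : 0 < K ^ k := by positivity
  have hcardU : ((S ∪ C).card : ℝ) = (S.card : ℝ) + k := by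
    rw [Finset.card_union_of_disjoint hdisj]
    push_cast
    rfl
  set h := 4 / amin with hh
  have hh0 : 0 < h := by positivity
  set M0 := amin / K with hM0
  have hM00 : 0 < M0 := by positivity
  have hSle : ∀ i ∈ S, a i ≤ M0 := by
    intro i hi
    have := hgap j0 hj0 i hi
    simp only [hM0]
    rw [le_div_iff₀ hK0]
    linarith
  have hsumS : ∑ i ∈ S, a i ≤ (n : ℝ) * M0 := by
    calc ∑ i ∈ S, a i ≤ ∑ _i ∈ S, M0 := Finset.sum_le_sum hSle
      _ = (S.card : ℝ) * M0 := by simp
      _ ≤ (n : ℝ) * M0 := mul_le_mul_of_nonneg_right hSn' hM00.le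
  have hsumS0 : 0 ≤ ∑ i ∈ S, a i := Finset.sum_nonneg (fun i hi => (haS i hi).le)
  have hdur : ∀ s ∈ L, h ≤ s.dur := by
    intro s hs
    have h1 := hI.lower M0 hM00 hSle s hs
    have h2 : epsb n / (2 * (n : ℝ) * M0) = h := aux_eps2 n hn hamin
    linarith
  -- sums over the cluster
  set δ := ∑ j ∈ C, a j • u j with hδ
  set sa := ∑ j ∈ C, a j with hsa
  have hsa0 : 0 < sa := Finset.sum_pos haC hC
  have hδn : ‖δ‖ ≤ sa := norm_delta_le C u a huC (fun j hj => (haC j hj).le)
  have hsa1 : sa ≤ ((k : ℝ) * K ^ k) * amin := by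
    calc sa ≤ ∑ _j ∈ C, K ^ k * amin := Finset.sum_le_sum (fun j hj => hratio j hj j0 hj0)
      _ = ((k : ℝ) * K ^ k) * amin := by
        rw [Finset.sum_const, nsmul_eq_mul]
        ring
  set WS := ∑ j ∈ S, a j • u j with hWS
  have hWU : ∑ j ∈ S ∪ C, a j • u j = WS + δ := Finset.sum_union hdisj
  have hsU : ∑ j ∈ S ∪ C, a j = ∑ j ∈ S, a j + sa := Finset.sum_union hdisj
  have hVk : (k : ℝ) * K ^ k * 8 ≤ (k : ℝ) * Vbar n := by
    simp only [Vbar]
    rw [← hK]
    have e1 : K ^ k * 8 ≤ 8 * K ^ n := by linarith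
    have e2 := mul_le_mul_of_nonneg_left e1 (by positivity : (0 : ℝ) ≤ k)
    linarith
  have hcountL : ∀ j ∈ C, (tags L).count j = 0 := by
    intro j hj
    refine List.count_eq_zero_of_not_mem (fun hmem => ?_)
    exact (Finset.disjoint_left.mp hdisj) (hI.tagsS j hmem) hj
  rcases le_or_gt (2 * h) (1 - TS) with hcase | hcase
  · -- enough time for all the windows
    set d := 1 - h - TS with hd
    have hdh : h ≤ d := by
      simp only [hd]
      linarith
    set A := (S.card : ℝ) * Abar n with hA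
    have hA0 : 0 ≤ A := mul_nonneg (by positivity) (Abar_pos n hn).le
    let last : Seg ι E := ⟨none, d, 0⟩
    have hlast : eff u last = 0 := by
      simp [eff, jv, last]
    have hend0 := Bdd_end u A L 0 (by simpa using hA0) hI.bdd
    have hB1 : Bdd u A 0 (L ++ [last]) := by
      rw [Bdd_append]
      refine ⟨hI.bdd, ?_, ?_, trivial⟩
      · simpa [jv, last] using hend0
      · rw [hlast]
        simpa using hend0
    have hL1 : ∀ s ∈ L ++ [last], h ≤ s.dur := by
      intro s hs
      rcases List.mem_append.mp hs with hs | hs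
      · exact hdur s hs
      · rw [List.mem_singleton.mp hs]
        exact hdh
    obtain ⟨L2, h2B, -, h2dur, h2tags, h2tv, h2z⟩ := refine_list u h hh0 A (L ++ [last]) hL1 WS 0 hB1
    have h2dur' : sumDur L2 = 1 - h := by
      rw [h2dur, sumDur_append, hI.dur]
      simp only [sumDur_cons, sumDur_nil, last, hd]
      ring
    have htagsL1 : tags (L ++ [last]) = tags L := by
      rw [tags_append, tags_cons]
      simp [last]
    have hεb0 := epsb_pos n hn
    have hεb1 := epsb_le n hn
    have hεA : epsb n ^ 2 * A ≤ 1 / 4 := eps_A n S.card hn hSn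
    have hL2 : ∀ s ∈ L2, 4 / amin ≤ s.dur ∧ s.dur < 8 / amin ∧ ‖s.dur • s.w‖ ≤ epsb n ∧
        ‖jv u s‖ ≤ 1 := by
      intro s hs
      obtain ⟨e1, e2, ⟨s', hs', e3⟩, e4⟩ := h2z s hs
      have hw : ‖s.w‖ ≤ (n : ℝ) * M0 := by
        rw [e3]
        rcases List.mem_append.mp hs' with hs' | hs'
        · exact (hI.wle s' hs').trans hsumS
        · rw [List.mem_singleton.mp hs']
          simp only [last, norm_zero]
          positivity
      have h8 : 2 * h = 8 / amin := by
        simp only [hh]
        ring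
      refine ⟨e1, by rw [← h8]; exact e2, ?_, ?_⟩
      · rw [norm_smul, Real.norm_eq_abs, abs_of_pos (lt_of_lt_of_le hh0 e1)]
        have h1 : s.dur * ‖s.w‖ ≤ 8 / amin * ((n : ℝ) * M0) :=
          mul_le_mul (by rw [← h8]; exact e2.le) hw (norm_nonneg _) (by positivity)
        have h2 : 8 / amin * ((n : ℝ) * M0) = epsb n := aux_eps1 n hn hamin
        linarith
      · rw [jv_eq]
        rcases htag : s.tag with _ | j
        · simp [jvo]
        · have hj := e4 j htag
          rw [htagsL1] at hj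
          exact huS j (hI.tagsS j hj)
    have hΛ : ∑ j ∈ C, a j ≤ ((k : ℝ) * K ^ k) * amin := hsa1
    obtain ⟨L', m', X, h1, h2, h3, h4, h5, h6, h7, -, h9, h10⟩ :=
      level C hC u a amin ((k : ℝ) * K ^ k) (epsb n) A hamin hmin hΛ huC hεb0 hεb1 hεA
        L2 0 0 (fun _ => 0) le_rfl hL2 h2B
        (by
          intro j _
          simp)
        (by simp [qv])
    rw [zero_add, h2dur'] at h7
    have hq00 : (0 : E) + qv C u a (fun _ => 0) 0 = 0 := by simp [qv]
    rw [hq00] at h1
    have hpermcount : ∀ j, (tags L').count j = (tags L).count j + X.count j := by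
      intro j
      rw [h4.count_eq, h2tags, htagsL1, List.count_append]
    refine ⟨L', 1 - h, ?_⟩
    have hh1 : h ≤ 1 := by linarith [hI.T0]
    have hah : ∀ j ∈ C, 4 ≤ a j * h := by
      intro j hj
      have h1 : amin * h = 4 := by
        simp only [hh]
        field_simp
      have h2 := mul_le_mul_of_nonneg_right (hmin j hj) hh0.le
      linarith
    have hah2 : ∀ j ∈ C, a j * h ≤ 4 * K ^ k := by
      intro j hj
      have h1 := hratio j hj j0 hj0
      have h2 : amin * h = 4 := by
        simp only [hh]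
        field_simp
      have h3 := mul_le_mul_of_nonneg_right h1 hh0.le
      calc a j * h ≤ K ^ k * amin * h := h3
        _ = K ^ k * (amin * h) := by ring
        _ = 4 * K ^ k := by rw [h2]; ring
    refine ⟨?_, ?_, by linarith, by linarith, ?_, ?_, ?_, Or.inr ?_, ?_, ?_⟩
    · -- bound
      rw [hcardU]
      refine Bdd_mono u ?_ L' 0 h1
      have hc := cost_le n k hn hk1
      rw [← hK] at hc
      rw [add_mul]
      linarith
    · rw [h3, h2dur']
    · intro j hj
      have hj' : j ∈ tags L ++ X := by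
        rw [h2tags, htagsL1] at h4
        exact h4.subset hj
      rcases List.mem_append.mp hj' with hj' | hj'
      · exact mem_union_left _ (hI.tagsS j hj')
      · exact mem_union_right _ (h5 j hj')
    · intro M hM hMle s hs
      obtain ⟨e1, -⟩ := h10 s hs
      refine le_trans ?_ e1
      have hsaM : sa ≤ (n : ℝ) * M := by
        calc sa ≤ ∑ _j ∈ C, M := Finset.sum_le_sum (fun j hj => hMle j (mem_union_right _ hj))
          _ = (k : ℝ) * M := by rw [Finset.sum_const, nsmul_eq_mul]
          _ ≤ (n : ℝ) * M := mul_le_mul_of_nonneg_right hkn' hM.le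
      refine div_le_div_of_nonneg_left hεb0.le (by positivity) ?_
      linarith
    · intro s hs
      obtain ⟨-, s', hs', e2⟩ := h10 s hs
      rw [e2, hsU]
      obtain ⟨-, -, ⟨s'', hs'', e3⟩, -⟩ := h2z s' hs'
      have hw : ‖s'.w‖ ≤ ∑ j ∈ S, a j := by
        rw [e3]
        rcases List.mem_append.mp hs'' with hs'' | hs''
        · exact hI.wle s'' hs''
        · rw [List.mem_singleton.mp hs'']
          simpa [last] using hsumS0
      exact (norm_add_le _ _).trans (by linarith)
    · intro M hM hMle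
      have h1 : amin ≤ M := hMle j0 (mem_union_right _ hj0)
      have : 1 - (1 - h) = 4 / amin := by
        simp only [hh]
        ring
      rw [this]
      exact div_le_div_of_nonneg_left (by norm_num) hamin h1
    · intro j hj
      rw [hpermcount]
      rcases mem_union.mp hj with hjS | hjC
      · have hnot : j ∉ C := fun h => (Finset.disjoint_left.mp hdisj) hjS h
        rw [List.count_eq_zero_of_not_mem (fun h => hnot (h5 j h)), add_zero]
        exact hI.count j hjS
      · rw [hcountL j hjC, zero_add]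
        have e1 : X.count j = m' j := by
          have := h6 j hjC
          simpa using this
        rw [e1]
        obtain ⟨e2, e3⟩ := h7 j hjC
        have e4 := hah j hjC
        have e5 := hah2 j hjC
        have e6 : a j * (1 - h) = a j - a j * h := by ring
        rw [e6] at e2 e3
        constructor
        · linarith
        · simp only [Lbd]
          rw [← hK]
          have : K ^ k ≤ K ^ n := hKpow
          linarith
    · -- total variation
      rw [hWU, h9, h2tv, tv_append]
      have e1 : tv WS [last] = d * ‖WS‖ := by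
        simp only [tv_cons, tv_nil, last, add_zero, zero_sub, norm_neg]
      rw [e1, hcardU]
      have e2 := hI.tvle
      rw [← hWS] at e2
      have e3 : (1 - (1 - h)) * ‖WS + δ‖ ≤ h * (‖WS‖ + sa) := by
        have : 1 - (1 - h) = h := by ring
        rw [this]
        refine mul_le_mul_of_nonneg_left ?_ hh0.le
        exact (norm_add_le _ _).trans (by linarith)
      have e4 : h * sa ≤ 4 * ((k : ℝ) * K ^ k) := by
        have h1 : h * (((k : ℝ) * K ^ k) * amin) = 4 * ((k : ℝ) * K ^ k) := by
          simp only [hh]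
          field_simp
        have h2 := mul_le_mul_of_nonneg_left hsa1 hh0.le
        linarith
      have e5 : 0 ≤ (k : ℝ) * K ^ k := mul_nonneg (Nat.cast_nonneg k) hKpow0.le
      have e6 : d + h = 1 - TS := by
        simp only [hd]
        ring
      have e7 : d * ‖WS‖ + h * ‖WS‖ = (1 - TS) * ‖WS‖ := by
        rw [← e6]
        ring
      have e8 : h * (‖WS‖ + sa) = h * ‖WS‖ + h * sa := by ring
      rw [add_mul]
      linarith
  · -- too little time: nothing happens
    have hLnil : L = [] ∧ TS = 0 := by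
      rcases hI.left with h1 | h1
      · exact h1
      · exfalso
        have h2 := h1 M0 hM00 hSle
        have h3 : 4 / M0 = 4 * K / amin := by
          simp only [hM0]
          field_simp
        have h4 : 2 * h = 8 / amin := by
          simp only [hh]
          ring
        rw [h3] at h2
        rw [h4] at hcase
        have h5 : 4 * K / amin < 8 / amin := lt_of_le_of_lt h2 hcase
        rw [div_lt_div_iff_of_pos_right hamin] at h5
        linarith
    obtain ⟨rfl, rfl⟩ := hLnil
    have ham8 : amin < 8 := by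
      have h4 : 2 * h = 8 / amin := by
        simp only [hh]
        ring
      rw [h4] at hcase
      have : (1 : ℝ) < 8 / amin := by linarith
      rwa [one_lt_div hamin] at this
    refine ⟨[], 0, trivial, rfl, le_rfl, zero_le_one, fun j hj => absurd hj List.not_mem_nil,
      fun _ _ _ _ hs => absurd hs List.not_mem_nil, fun _ hs => absurd hs List.not_mem_nil,
      Or.inl ⟨rfl, rfl⟩, ?_, ?_⟩
    · intro j hj
      rcases mem_union.mp hj with hjS | hjC
      · exact hI.count j hjS
      · have h0 := haC j hjC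
        simp only [tags_nil, List.count_nil, Nat.cast_zero, sub_zero]
        refine ⟨h0.le, ?_⟩
        have h1 := hratio j hjC j0 hj0
        have h2 : K ^ k * amin ≤ K ^ k * 8 := mul_le_mul_of_nonneg_left ham8.le hKpow0.le
        simp only [Lbd]
        rw [← hK]
        linarith
    · rw [hWU, hcardU]
      have e2 := hI.tvle
      rw [← hWS] at e2
      simp only [tv_nil, zero_add, sub_zero, one_mul] at e2 ⊢
      have e3 : ‖WS + δ‖ ≤ ‖WS‖ + sa := (norm_add_le _ _).trans (by linarith)
      have e4 : sa ≤ (k : ℝ) * K ^ k * 8 := by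
        have : (k : ℝ) * K ^ k * amin ≤ (k : ℝ) * K ^ k * 8 :=
          mul_le_mul_of_nonneg_left ham8.le (by positivity)
        linarith
      rw [add_mul]
      linarith

/-- The few type theorem. -/
theorem few [DecidableEq ι] (n : ℕ) (hn : 1 ≤ n) (u : ι → E) (a : ι → ℝ) :
    ∀ S : Finset ι, S.card ≤ n → (∀ j ∈ S, ‖u j‖ ≤ 1) → (∀ j ∈ S, 0 < a j) →
      ∃ L TS, Inv n u a S L TS := by
  intro S
  induction S using Finset.strongInduction with
  | H S ih =>
    intro hS hu ha
    rcases S.eq_empty_or_nonempty with rfl | hNE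
    · refine ⟨[], 0, ⟨trivial, rfl, le_rfl, by norm_num, by simp, by simp, by simp,
        Or.inl ⟨rfl, rfl⟩, by simp, by simp⟩⟩
    · have hK1 : 1 ≤ gapK n := by linarith [gapK_ge n hn]
      obtain ⟨C, hCS, hCne, hgap, hrat⟩ := exists_cluster a (gapK n) hK1 S hNE ha
      set S' := S \ C with hS'
      have hss : S' ⊂ S := Finset.sdiff_ssubset hCS hCne
      have hunion : S' ∪ C = S := Finset.sdiff_union_of_subset hCS
      have hdisj : Disjoint S' C := Finset.sdiff_disjoint
      have hcard : S'.card + C.card ≤ n := by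
        rw [← Finset.card_union_of_disjoint hdisj, hunion]
        exact hS
      obtain ⟨L, TS, hI⟩ := ih S' hss (by omega)
        (fun j hj => hu j (Finset.mem_sdiff.mp hj).1)
        (fun j hj => ha j (Finset.mem_sdiff.mp hj).1)
      have := inv_step n hn S' C hdisj hcard hCne u a (by rwa [hunion]) (by rwa [hunion])
        (fun j hj i hi => hgap j hj i hi) hrat L TS hI
      rwa [hunion] at this

end

end Vale.Agent.helper7.St
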