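import Vale.Agent.helper7.St.Numeric

/-!
The final statement for families indexed by `Fin N`.
-/

open Finset

namespace Vale.Agent.helper7.St

noncomputable section

theorem steinitz_fin {d : ℕ} (hd : 1 ≤ d) {N : ℕ} (v : Fin N → Sp d) (hv : ∀ i, ‖v i‖ ≤ 1)
    (hz : ∑ i, v i = 0) :
    ∃ π : Equiv.Perm (Fin N), ∀ k : Fin N, ‖∑ i ∈ Finset.Iic k, v (π i)‖ ≤ Rad d := by
  classical
  obtain ⟨X', hX'p, hX'b⟩ := steinitz_list (α := Fin N) (Rad d) (Rad_ge d hd) (num_final d hd) N
    (List.finRange N) (List.length_finRange) v (fun i _ => hv i)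
    (by rw [← Fin.sum_univ_def]; exact hz)
  have hlen : X'.length = N := by
    rw [hX'p.length_eq, List.length_finRange]
  have hnd : X'.Nodup := hX'p.nodup_iff.mpr (List.nodup_finRange N)
  let e : Fin N → Fin N := fun i => X'.get (i.cast hlen.symm)
  have hinj : Function.Injective e := by
    intro a b hab
    have h1 := List.Nodup.injective_get hnd hab
    exact (Fin.cast_injective _) h1
  have hbij : Function.Bijective e := Finite.injective_iff_bijective.mp hinj
  let π : Equiv.Perm (Fin N) := Equiv.ofBijective e hbij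
  refine ⟨π, fun k => ?_⟩
  have hofn : List.ofFn e = X' := by
    have h1 : List.ofFn e = List.ofFn X'.get := by
      rw [List.ofFn_congr hlen.symm]
      rfl
    rw [h1, List.ofFn_get]
  have hsum : ∑ i ∈ Finset.Iic k, v (π i) = ((List.ofFn (fun i => v (π i))).take (k.val + 1)).sum :=
    (take_ofFn_sum (fun i => v (π i)) k).symm
  rw [hsum]
  have hmap : List.ofFn (fun i => v (π i)) = X'.map v := by
    rw [← hofn, List.map_ofFn]
    rfl
  rw [hmap, ← List.map_take]
  exact hX'b _ (List.take_prefix _ _)

end

end Vale.Agent.helper7.St
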