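import Vale.Agent.helper7.St.Refine

/-!
One level: inserting the jumps of a fast cluster into a given path.
-/

open Finset

set_option linter.unusedSectionVars false

namespace Vale.Agent.helper7.St

noncomputable section

variable {E : Type*} [NormedAddCommGroup E] [InnerProductSpace ℝ E] {ι : Type*}

/-- Lists with prescribed counts. -/
lemma exists_list_counts [DecidableEq ι] (C : Finset ι) (n : ι → ℕ) (u : ι → E) :
    ∃ X : List ι, (∀ j ∈ X, j ∈ C) ∧ (∀ j ∈ C, X.count j = n j) ∧
      X.length = ∑ j ∈ C, n j ∧ (X.map u).sum = ∑ j ∈ C, (n j : ℝ) • u j := by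
  induction C using Finset.induction_on with
  | empty => exact ⟨[], by simp⟩
  | insert j C hj ih =>
    obtain ⟨X, h1, h2, h3, h4⟩ := ih
    have hnot : j ∉ X := fun h => hj (h1 j h)
    refine ⟨List.replicate (n j) j ++ X, ?_, ?_, ?_, ?_⟩
    · intro i hi
      rcases List.mem_append.mp hi with hi | hi
      · rw [List.eq_of_mem_replicate hi]
        exact mem_insert_self _ _
      · exact mem_insert_of_mem (h1 i hi)
    · intro i hi
      rw [List.count_append]
      rcases mem_insert.mp hi with rfl | hi'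
      · rw [List.count_replicate_self, List.count_eq_zero_of_not_mem hnot]
        rfl
      · have hne : i ≠ j := fun h => hj (h ▸ hi')
        rw [List.count_eq_zero_of_not_mem (fun h => hne (List.eq_of_mem_replicate h)), h2 i hi',
          zero_add]
    · rw [List.length_append, List.length_replicate, h3, sum_insert hj]
    · rw [List.map_append, List.sum_append, h4, sum_insert hj, List.map_replicate,
        List.sum_replicate]
      congr 1
      exact (Nat.cast_smul_eq_nsmul ℝ _ _).symm

/-- One level. -/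
theorem level [DecidableEq ι] (C : Finset ι) (hC : C.Nonempty) (u : ι → E) (a : ι → ℝ)
    (amin Λ εb A : ℝ) (hamin : 0 < amin) (ha : ∀ j ∈ C, amin ≤ a j)
    (hΛ : ∑ j ∈ C, a j ≤ Λ * amin) (hu : ∀ j ∈ C, ‖u j‖ ≤ 1)
    (hεb0 : 0 < εb) (hεb : εb ≤ 1 / 4) (hεA : εb ^ 2 * A ≤ 1 / 4) :
    ∀ (L : List (Seg ι E)) (p : E) (t : ℝ) (m : ι → ℕ), 0 ≤ t →
      (∀ s ∈ L, 4 / amin ≤ s.dur ∧ s.dur < 8 / amin ∧ ‖s.dur • s.w‖ ≤ εb ∧ ‖jv u s‖ ≤ 1) →
      Bdd u A p L →
      (∀ j ∈ C, a j * t - 1 < m j ∧ (m j : ℝ) ≤ a j * t + 1) →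
      2 * inner ℝ p (qv C u a m t) + 3 * ‖qv C u a m t‖ ^ 2 ≤ 3 / 4 * (C.card : ℝ) →
      ∃ (L' : List (Seg ι E)) (m' : ι → ℕ) (X : List ι),
        Bdd u (A + 3 / 4 * (C.card : ℝ) + 27 +
            96 * (50 * Real.log (12 * Λ) + 18 * (C.card : ℝ))) (p + qv C u a m t) L' ∧
        endv u (p + qv C u a m t) L' = endv u p L + qv C u a m' (t + sumDur L) ∧
        sumDur L' = sumDur L ∧
        (tags L').Perm (tags L ++ X) ∧ (∀ j ∈ X, j ∈ C) ∧ (∀ j ∈ C, X.count j + m j = m' j) ∧
        (∀ j ∈ C, a j * (t + sumDur L) - 1 < m' j ∧ (m' j : ℝ) ≤ a j * (t + sumDur L) + 1) ∧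
        2 * inner ℝ (endv u p L) (qv C u a m' (t + sumDur L)) +
          3 * ‖qv C u a m' (t + sumDur L)‖ ^ 2 ≤ 3 / 4 * (C.card : ℝ) ∧
        (∀ W : E, tv (W + ∑ j ∈ C, a j • u j) L' = tv W L) ∧
        (∀ z ∈ L', εb / (2 * ∑ j ∈ C, a j) ≤ z.dur ∧
          ∃ s ∈ L, z.w = s.w + ∑ j ∈ C, a j • u j) := by
  classical
  intro L
  set k := C.card with hk
  have hk1 : 1 ≤ k := Finset.card_pos.mpr hC
  have hk1' : (1 : ℝ) ≤ k := by exact_mod_cast hk1
  set δ := ∑ j ∈ C, a j • u j with hδ
  set sa := ∑ j ∈ C, a j with hsa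
  have hapos : ∀ j ∈ C, 0 < a j := fun j hj => lt_of_lt_of_le hamin (ha j hj)
  have hsa0 : 0 < sa := Finset.sum_pos hapos hC
  have hsak : (k : ℝ) * amin ≤ sa := by
    have := Finset.card_nsmul_le_sum C a amin ha
    simpa [nsmul_eq_mul] using this
  induction L with
  | nil =>
    intro p t m _ _ _ hm hΨ
    refine ⟨[], m, [], trivial, ?_, rfl, ?_, by simp, by simp, ?_, ?_, ?_, by simp⟩
    · simp
    · simp
    · simpa using hm
    · simpa using hΨ
    · intro W
      simp
  | cons s L ih =>
    intro p t m ht hL hB hm hΨ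
    obtain ⟨hs1, hs2, hs3, hs4⟩ := hL s List.mem_cons_self
    obtain ⟨hB1, hB2, hB3⟩ := hB
    set τ := s.dur with hτdef
    have hτ0 : 0 < τ := lt_of_lt_of_le (by positivity) hs1
    have hτa : ∀ j ∈ C, 4 ≤ a j * τ := by
      intro j hj
      have h1 : amin * (4 / amin) = 4 := by field_simp
      have h2 : amin * (4 / amin) ≤ a j * τ :=
        mul_le_mul (ha j hj) hs1 (by positivity) (hapos j hj).le
      linarith
    set p0 := p + jv u s with hp0
    set p1 := p + eff u s with hp1
    have hp1p0 : p1 - p0 = -(τ • s.w) := by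
      simp only [hp1, hp0, eff]
      abel
    obtain ⟨m', hm'1, hm'2⟩ := round_qv C u hu a (t + τ)
      (fun j hj => mul_nonneg (hapos j hj).le (by linarith)) p1
    set q0 := qv C u a m t with hq0
    set q1 := qv C u a m' (t + τ) with hq1
    have hmono : ∀ j ∈ C, m j ≤ m' j := by
      intro j hj
      have h1 := (hm j hj).2
      have h2 := (hm'1 j hj).1
      have h3 := hτa j hj
      have h4 : (m j : ℝ) < m' j := by
        have : a j * (t + τ) = a j * t + a j * τ := by ring
        rw [this] at h2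
        linarith
      exact_mod_cast h4.le
    set n : ι → ℕ := fun j => m' j - m j with hn
    have hmn : ∀ j ∈ C, m' j = m j + n j := by
      intro j hj
      have := hmono j hj
      simp only [hn]
      omega
    have hq1' : q1 = q0 + ∑ j ∈ C, (n j : ℝ) • u j - τ • δ := qv_step C u a m n m' t τ hmn
    obtain ⟨X0, hX1, hX2, hX3, hX4⟩ := exists_list_counts C n u
    -- size of the window
    have hnle : ∀ j ∈ C, (n j : ℝ) ≤ a j * τ + 2 := by
      intro j hj
      have h1 := (hm j hj).1
      have h2 := (hm'1 j hj).2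
      have h3 : (m' j : ℝ) = m j + n j := by
        exact_mod_cast hmn j hj
      have : a j * (t + τ) = a j * t + a j * τ := by ring
      rw [this] at h2
      linarith
    have hnpos : ∀ j ∈ C, 1 ≤ n j := by
      intro j hj
      have h1 := (hm j hj).2
      have h2 := (hm'1 j hj).1
      have h3 := hτa j hj
      have h4 : (m' j : ℝ) = m j + n j := by
        exact_mod_cast hmn j hj
      have : a j * (t + τ) = a j * t + a j * τ := by ring
      rw [this] at h2
      have h5 : (0 : ℝ) < n j := by linarith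
      exact_mod_cast h5
    obtain ⟨j0, hj0⟩ := hC
    have hXne : X0 ≠ [] := by
      intro h
      have h1 := hX2 j0 hj0
      have h2 := hnpos j0 hj0
      rw [h] at h1
      simp at h1
      omega
    have hNpos : (1 : ℝ) ≤ (X0.length : ℝ) := by
      have : 0 < X0.length := List.length_pos_iff.mpr hXne
      exact_mod_cast this
    have hNle : (X0.length : ℝ) ≤ τ * sa + 2 * k := by
      rw [hX3]
      push_cast
      calc ∑ j ∈ C, (n j : ℝ) ≤ ∑ j ∈ C, (a j * τ + 2) := Finset.sum_le_sum hnle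
        _ = τ * sa + 2 * k := by
          rw [Finset.sum_add_distrib, ← Finset.sum_mul, Finset.sum_const, nsmul_eq_mul]
          ring
    have h4k : 4 * (k : ℝ) ≤ τ * sa := by
      have h1 : (k : ℝ) * amin * (4 / amin) = 4 * k := by field_simp
      have h2 : (k : ℝ) * amin * (4 / amin) ≤ sa * τ :=
        mul_le_mul hsak hs1 (by positivity) hsa0.le
      linarith
    have hNle2 : (X0.length : ℝ) ≤ 3 / 2 * (τ * sa) := by linarith
    have hτsa : τ * sa ≤ 8 * Λ := by
      have h1 : τ * sa ≤ 8 / amin * (Λ * amin) :=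
        mul_le_mul hs2.le hΛ hsa0.le (by positivity)
      have h2 : 8 / amin * (Λ * amin) = 8 * Λ := by field_simp
      linarith
    have hNle3 : (X0.length : ℝ) ≤ 12 * Λ := by linarith
    have hlogN : Real.log (X0.length : ℝ) ≤ Real.log (12 * Λ) :=
      Real.log_le_log (by linarith) hNle3
    -- the window
    have hp0b : ‖p0‖ ^ 2 ≤ A := hB1
    have hp1b : ‖p1‖ ^ 2 ≤ A := hB2
    have hpb : εb * ‖p0‖ ≤ 1 / 2 := by
      have h1 : (εb * ‖p0‖) ^ 2 ≤ (1 / 2) ^ 2 := by
        rw [mul_pow]
        have := mul_le_mul_of_nonneg_left hp0b (sq_nonneg εb)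
        nlinarith
      have := abs_le_of_sq_le_sq' h1 (by norm_num)
      exact this.2
    have hgood0 : ‖p0 + q0‖ ^ 2 + ‖q0‖ ^ 2 ≤ A + (3 / 4 * (k : ℝ) + 1) := by
      have h1 := good_of_psi hΨ (p' := p0) (by simpa [hp0] using hs4)
      linarith
    have hgood1 : ‖p1 + q1‖ ^ 2 + ‖q1‖ ^ 2 ≤ A + (3 / 4 * (k : ℝ) + 1) := by
      have h1 := good_of_psi hm'2 (p' := p1) (by simp)
      linarith
    have hppn : ‖p1 - p0‖ ≤ εb := by
      rw [hp1p0, norm_neg]
      exact hs3
    obtain ⟨Z, hZ1, hZ2, hZ3, hZ4, hZ5⟩ := window C u hu X0 hX1 hXne τ hτ0 (s.w + δ) s.tag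
      (p + q0) p0 p1 q0 q1 _ εb εb (by linarith) hεb0 hεb
      (by
        rw [← jv_eq, hp0]
        abel)
      (by
        rw [hX4, hq1']
        simp only [hp1, hp0, eff, smul_add]
        abel)
      hgood0 hgood1 hppn hpb
    -- the rest of the path
    obtain ⟨L', m'', X', h1, h2, h3, h4, h5, h6, h7, h8, h9, h10⟩ := ih p1 (t + τ) m' (by linarith)
      (fun y hy => hL y (List.mem_cons_of_mem _ hy)) hB3 hm'1 hm'2
    have htt : t + sumDur (s :: L) = t + τ + sumDur L := by
      rw [sumDur_cons]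
      ring
    rw [htt]
    have hend : endv u p (s :: L) = endv u p1 L := by
      rw [endv_cons]
    rw [hend]
    refine ⟨Z ++ L', m'', X0 ++ X', ?_, ?_, ?_, ?_, ?_, ?_, h7, h8, ?_, ?_⟩
    · rw [Bdd_append]
      constructor
      · refine Bdd_mono u ?_ Z _ hZ1
        have : 96 * (50 * Real.log (X0.length : ℝ) + 18 * (k : ℝ)) ≤
            96 * (50 * Real.log (12 * Λ) + 18 * (k : ℝ)) := by linarith
        linarith
      · rw [hZ2]
        exact h1
    · rw [endv_append, hZ2, h2]
    · rw [sumDur_append, hZ3, h3, sumDur_cons]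
    · rw [tags_append, tags_cons, List.append_assoc]
      refine (hZ5.append h4).trans ?_
      rw [List.append_assoc]
      exact (List.perm_append_comm_assoc X0 (tags L) X').append_left _
    · intro j hj
      rcases List.mem_append.mp hj with hj | hj
      · exact hX1 j hj
      · exact h5 j hj
    · intro j hj
      rw [List.count_append, hX2 j hj, ← h6 j hj, hmn j hj]
      omega
    · intro W
      rw [tv_append, h9, tv_cons, tv_const _ (s.w + δ) Z (fun z hz => (hZ4 z hz).1), hZ3]
      have : s.w + δ - (W + δ) = s.w - W := by abel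
      rw [this]
    · intro z hz
      rcases List.mem_append.mp hz with hz | hz
      · obtain ⟨e1, e2⟩ := hZ4 z hz
        refine ⟨?_, s, List.mem_cons_self, e1⟩
        refine le_trans ?_ e2
        have hNposs : (0 : ℝ) < X0.length := by linarith
        rw [div_mul_eq_mul_div, div_le_div_iff₀ (by positivity) hNposs]
        have h0 : 0 ≤ τ * sa := by positivity
        calc εb * (X0.length : ℝ) ≤ εb * (2 * (τ * sa)) :=
              mul_le_mul_of_nonneg_left (by linarith) hεb0.le
          _ = εb * τ * (2 * sa) := by ring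
      · obtain ⟨e1, s', hs', e2⟩ := h10 z hz
        exact ⟨e1, s', List.mem_cons_of_mem _ hs', e2⟩

end

end Vale.Agent.helper7.St
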