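import Vale.Agent.helper7.St.Top

/-!
The numerical inequality for the final bound.
-/

open Finset

set_option linter.unusedSectionVars false

namespace Vale.Agent.helper7.St

noncomputable section

lemma log_le_mul_log_two {x : ℝ} {m : ℕ} (hx : 0 < x) (h : x ≤ 2 ^ m) :
    Real.log x ≤ (m : ℝ) * Real.log 2 := by
  have h1 := Real.log_le_log hx h
  rwa [Real.log_pow] at h1

section params

variable (d : ℕ) (hd : 1 ≤ d)

include hd

lemma two_le_D : (2 : ℝ) ≤ (d : ℝ) + 1 := by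
  have : (1 : ℝ) ≤ d := by exact_mod_cast hd
  linarith

lemma log_two_le_ell : Real.log 2 ≤ Real.log ((d : ℝ) + 1) :=
  Real.log_le_log (by norm_num) (two_le_D d hd)

lemma ell_le_d : Real.log ((d : ℝ) + 1) ≤ d := by
  have h : (0 : ℝ) < (d : ℝ) + 1 := by positivity
  have := Real.log_le_sub_one_of_pos h
  linarith

lemma log_gapK_eq : Real.log (gapK (d + 1)) = Real.log 8000 + 2 * Real.log ((d : ℝ) + 1) := by
  have h : (0 : ℝ) < (d : ℝ) + 1 := by positivity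
  simp only [gapK]
  push_cast
  rw [Real.log_mul (by norm_num) (by positivity), Real.log_pow]
  norm_num

lemma log_gapK_le :
    Real.log (gapK (d + 1)) ≤ 13 * Real.log 2 + 2 * Real.log ((d : ℝ) + 1) := by
  rw [log_gapK_eq d hd]
  have := log_le_mul_log_two (x := 8000) (m := 13) (by norm_num) (by norm_num)
  push_cast at this
  linarith

lemma gapK_pow_ge_one : 1 ≤ gapK (d + 1) ^ (d + 1) :=
  one_le_pow₀ (by linarith [gapK_ge (d + 1) (by omega)])

lemma sqrt_Af_le : Real.sqrt (Af d) ≤ 253 * ((d : ℝ) + 1) := by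
  have hD : (0 : ℝ) < (d : ℝ) + 1 := by positivity
  have h1 : Af d ≤ 64000 * ((d : ℝ) + 1) ^ 2 := by
    have h2 := Abar_le (d + 1) (by omega)
    push_cast at h2
    simp only [Af]
    calc ((d : ℝ) + 1) * Abar (d + 1) ≤ ((d : ℝ) + 1) * (64000 * ((d : ℝ) + 1)) :=
          mul_le_mul_of_nonneg_left h2 hD.le
      _ = 64000 * ((d : ℝ) + 1) ^ 2 := by ring
  rw [Real.sqrt_le_left (by positivity)]
  nlinarith [sq_nonneg ((d : ℝ) + 1)]

lemma log_kap1 :
    Real.log ((2 * ⌈Real.sqrt (Af d) / (1 / (4 * ((d : ℝ) + 1)))⌉₊ + 1 : ℕ) : ℝ) ≤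
      11 * Real.log 2 + 2 * Real.log ((d : ℝ) + 1) := by
  have hD2 := two_le_D d hd
  have hD : (0 : ℝ) < (d : ℝ) + 1 := by linarith
  set κ := ⌈Real.sqrt (Af d) / (1 / (4 * ((d : ℝ) + 1)))⌉₊ with hκ
  have hin : Real.sqrt (Af d) / (1 / (4 * ((d : ℝ) + 1))) = Real.sqrt (Af d) * (4 * ((d : ℝ) + 1)) := by
    field_simp
  have h0 : 0 ≤ Real.sqrt (Af d) / (1 / (4 * ((d : ℝ) + 1))) := by positivity
  have h1 : (κ : ℝ) < Real.sqrt (Af d) / (1 / (4 * ((d : ℝ) + 1))) + 1 := Nat.ceil_lt_add_one h0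
  rw [hin] at h1
  have h2 := sqrt_Af_le d hd
  have h3 : Real.sqrt (Af d) * (4 * ((d : ℝ) + 1)) ≤ 253 * ((d : ℝ) + 1) * (4 * ((d : ℝ) + 1)) :=
    mul_le_mul_of_nonneg_right h2 (by positivity)
  have hD1 : 1 ≤ ((d : ℝ) + 1) ^ 2 := by nlinarith
  have h4 : ((2 * κ + 1 : ℕ) : ℝ) ≤ 2 ^ 11 * ((d : ℝ) + 1) ^ 2 := by
    push_cast
    nlinarith
  have h5 : (0 : ℝ) < ((2 * κ + 1 : ℕ) : ℝ) := by positivity
  have h6 := Real.log_le_log h5 h4
  rw [Real.log_mul (by norm_num) (by positivity), Real.log_pow, Real.log_pow] at h6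
  push_cast at h6 ⊢
  linarith

lemma log_floorV :
    Real.log ((⌊4 * Vf d⌋₊ + 1 : ℕ) : ℝ) ≤
      6 * Real.log 2 + Real.log ((d : ℝ) + 1) +
        ((d : ℝ) + 1) * (13 * Real.log 2 + 2 * Real.log ((d : ℝ) + 1)) := by
  have hD2 := two_le_D d hd
  have hD : (0 : ℝ) < (d : ℝ) + 1 := by linarith
  have hK := gapK_pow_ge_one d hd
  set P := gapK (d + 1) ^ (d + 1) with hP
  have hV : 4 * Vf d = 32 * (((d : ℝ) + 1) * P) := by
    simp only [Vf, Vbar]
    ring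
  have hV0 : 0 ≤ 4 * Vf d := by
    rw [hV]
    positivity
  have h1 : ((⌊4 * Vf d⌋₊ : ℕ) : ℝ) ≤ 4 * Vf d := Nat.floor_le hV0
  have h2 : ((⌊4 * Vf d⌋₊ + 1 : ℕ) : ℝ) ≤ 2 ^ 6 * (((d : ℝ) + 1) * P) := by
    push_cast
    have h1' : ((⌊4 * Vf d⌋₊ : ℕ) : ℝ) ≤ 32 * (((d : ℝ) + 1) * P) := by
      rw [← hV]
      exact h1
    have h3 : 1 ≤ ((d : ℝ) + 1) * P := by nlinarith
    norm_num
    linarith
  have hP0 : 0 < P := by linarith
  have h3 := Real.log_le_log (by positivity) h2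
  rw [Real.log_mul (by norm_num) (by positivity), Real.log_mul hD.ne' hP0.ne', Real.log_pow,
    hP, Real.log_pow] at h3
  have h4 := log_gapK_le d hd
  have h5 := mul_le_mul_of_nonneg_left h4 hD.le
  push_cast at h3 h5 ⊢
  linarith

lemma log_Lbd :
    Real.log (Lbd (d + 1)) ≤
      4 * Real.log 2 + ((d : ℝ) + 1) * (13 * Real.log 2 + 2 * Real.log ((d : ℝ) + 1)) := by
  have hD2 := two_le_D d hd
  have hD : (0 : ℝ) < (d : ℝ) + 1 := by linarith
  have hK := gapK_pow_ge_one d hd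
  have h2 : Lbd (d + 1) ≤ 2 ^ 4 * gapK (d + 1) ^ (d + 1) := by
    simp only [Lbd]
    nlinarith
  have h0 : 0 < Lbd (d + 1) := by
    simp only [Lbd]
    linarith
  have h3 := Real.log_le_log h0 h2
  rw [Real.log_mul (by norm_num) (by positivity), Real.log_pow, Real.log_pow] at h3
  have h4 := log_gapK_le d hd
  have h5 := mul_le_mul_of_nonneg_left h4 hD.le
  push_cast at h3 h5
  linarith

lemma log_nlab :
    Real.log (nlab d (Af d) (Vf d) : ℝ) ≤
      (d : ℝ) * (11 * Real.log 2 + 2 * Real.log ((d : ℝ) + 1)) +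
      (6 * Real.log 2 + Real.log ((d : ℝ) + 1) +
        ((d : ℝ) + 1) * (13 * Real.log 2 + 2 * Real.log ((d : ℝ) + 1))) := by
  have h1 := log_kap1 d hd
  have h2 := log_floorV d hd
  simp only [nlab]
  push_cast at h1 h2 ⊢
  rw [Real.log_mul (by positivity) (by positivity), Real.log_pow]
  have h3 := mul_le_mul_of_nonneg_left h1 (Nat.cast_nonneg d : (0 : ℝ) ≤ d)
  linarith

/-- The final radius. -/
def Rad (d : ℕ) : ℝ := 1000 * Real.sqrt ((d : ℝ) * Real.log ((d : ℝ) + 1))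

lemma Qlow : 0.69 ≤ (d : ℝ) * Real.log ((d : ℝ) + 1) := by
  have h1 : (1 : ℝ) ≤ d := by exact_mod_cast hd
  have h2 := log_two_le_ell d hd
  have h3 := Real.log_two_gt_d9
  nlinarith

lemma sqrtQ_low : 0.83 ≤ Real.sqrt ((d : ℝ) * Real.log ((d : ℝ) + 1)) := by
  apply Real.le_sqrt_of_sq_le
  have := Qlow d hd
  norm_num at this ⊢
  linarith

lemma sqrtQ_le : Real.sqrt ((d : ℝ) * Real.log ((d : ℝ) + 1)) ≤ (d : ℝ) := by
  have h1 := ell_le_d d hd
  have h0 : (0 : ℝ) ≤ d := Nat.cast_nonneg d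
  rw [Real.sqrt_le_left h0]
  nlinarith

lemma Rad_ge : 1 ≤ Rad d := by
  have := sqrtQ_low d hd
  simp only [Rad]
  linarith

lemma Rad_le : Rad d ≤ 1000 * (d : ℝ) := by
  have := sqrtQ_le d hd
  simp only [Rad]
  linarith

lemma log_kap0 :
    Real.log ((2 * kap0 d (Rad d) + 1 : ℕ) : ℝ) ≤
      15 * Real.log 2 + 3 * Real.log ((d : ℝ) + 1) := by
  have hD2 := two_le_D d hd
  have hD : (0 : ℝ) < (d : ℝ) + 1 := by linarith
  have hR1 := Rad_ge d hd
  have hR2 := Rad_le d hd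
  have hR0 : 0 < Rad d := by linarith
  set R := Rad d with hR
  set κ := kap0 d R with hκ
  have hin : 1 / ((1 / (8 * ((d : ℝ) + 1) * R)) / ((d : ℝ) + 1)) = 8 * ((d : ℝ) + 1) ^ 2 * R := by
    field_simp
  have h0 : 0 ≤ 1 / ((1 / (8 * ((d : ℝ) + 1) * R)) / ((d : ℝ) + 1)) := by positivity
  have h1 : (κ : ℝ) < 1 / ((1 / (8 * ((d : ℝ) + 1) * R)) / ((d : ℝ) + 1)) + 1 :=
    Nat.ceil_lt_add_one h0
  rw [hin] at h1
  have hDD : 1 ≤ ((d : ℝ) + 1) ^ 2 := by nlinarith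
  have h2 : ((2 * κ + 1 : ℕ) : ℝ) ≤ 19 * (((d : ℝ) + 1) ^ 2 * R) := by
    push_cast
    have h3 : 1 ≤ ((d : ℝ) + 1) ^ 2 * R := by nlinarith
    nlinarith
  have h3 : ((d : ℝ) + 1) ^ 2 * R ≤ ((d : ℝ) + 1) ^ 2 * (1000 * ((d : ℝ) + 1)) := by
    refine mul_le_mul_of_nonneg_left ?_ (by positivity)
    linarith
  have h4 : ((2 * κ + 1 : ℕ) : ℝ) ≤ 2 ^ 15 * ((d : ℝ) + 1) ^ 3 := by
    have e : ((d : ℝ) + 1) ^ 2 * (1000 * ((d : ℝ) + 1)) = 1000 * ((d : ℝ) + 1) ^ 3 := by ring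
    rw [e] at h3
    have h5 : (0 : ℝ) < ((d : ℝ) + 1) ^ 3 := by positivity
    nlinarith
  have h5 : (0 : ℝ) < ((2 * κ + 1 : ℕ) : ℝ) := by positivity
  have h6 := Real.log_le_log h5 h4
  rw [Real.log_mul (by norm_num) (by positivity), Real.log_pow, Real.log_pow] at h6
  push_cast at h6 ⊢
  linarith

lemma log_NT_le :
    Real.log (NT d (Rad d)) ≤ 122 * ((d : ℝ) * Real.log ((d : ℝ) + 1)) := by
  have hd1 : (1 : ℝ) ≤ d := by exact_mod_cast hd
  have hD : (0 : ℝ) < (d : ℝ) + 1 := by positivity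
  set ℓ := Real.log ((d : ℝ) + 1) with hℓ
  set L2 := Real.log 2 with hL2
  have hL2ℓ : L2 ≤ ℓ := log_two_le_ell d hd
  have hL20 : 0 < L2 := Real.log_pos (by norm_num)
  have hℓ0 : 0 < ℓ := by linarith
  set R := Rad d with hR
  set Nc : ℝ := (Ncell d R : ℝ) with hNc
  set Nl : ℝ := (nlab d (Af d) (Vf d) : ℝ) with hNl
  set Lb := Lbd (d + 1) with hLb
  have hNc1 : 1 ≤ Nc := by
    have : 1 ≤ Ncell d R := Nat.one_le_pow _ _ (by omega)
    simp only [hNc]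
    exact_mod_cast this
  have hNl1 : 1 ≤ Nl := by
    have : 1 ≤ nlab d (Af d) (Vf d) := by
      simp only [nlab]
      exact Nat.mul_pos (Nat.pow_pos (by omega)) (by omega)
    simp only [hNl]
    exact_mod_cast this
  have hLb1 : 1 ≤ Lb := by
    have := gapK_pow_ge_one d hd
    simp only [hLb, Lbd]
    linarith
  have hNT : NT d R ≤ 2 ^ 2 * (Nc ^ 2 * (Nl * Lb)) := by
    have e0 : NT d R = Nc * (2 * Nl) + Nc * (Nc * Lb) := rfl
    rw [e0]
    have h1 : Nc * (2 * Nl) ≤ 2 * (Nc ^ 2 * (Nl * Lb)) := by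
      have e1 : Nc ≤ Nc ^ 2 := by nlinarith
      have e2 : Nl ≤ Nl * Lb := by nlinarith
      have e3 : Nc * Nl ≤ Nc ^ 2 * (Nl * Lb) :=
        mul_le_mul e1 e2 (by linarith) (by positivity)
      linarith
    have h2 : Nc * (Nc * Lb) ≤ Nc ^ 2 * (Nl * Lb) := by
      have e1 : Lb ≤ Nl * Lb := by nlinarith
      have e2 : Nc * (Nc * Lb) = Nc ^ 2 * Lb := by ring
      rw [e2]
      exact mul_le_mul_of_nonneg_left e1 (by positivity)
    have h3 : 0 ≤ Nc ^ 2 * (Nl * Lb) :=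
      mul_nonneg (sq_nonneg _) (mul_nonneg (by linarith) (by linarith))
    linarith
  have hNT0 : 0 < NT d R := by linarith [NT_ge_one d R]
  have h1 := Real.log_le_log hNT0 hNT
  have hNl0 : 0 < Nl := by linarith
  have hLb0 : 0 < Lb := by linarith
  have hNc0 : 0 < Nc := by linarith
  rw [Real.log_mul (by norm_num) (by positivity), Real.log_mul (by positivity) (by positivity),
    Real.log_mul hNl0.ne' hLb0.ne', Real.log_pow, Real.log_pow] at h1
  have h2 : Real.log Nc ≤ (d : ℝ) * (15 * L2 + 3 * ℓ) := by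
    simp only [hNc, Ncell]
    push_cast
    rw [Real.log_pow]
    have h3 := log_kap0 d hd
    push_cast at h3
    exact mul_le_mul_of_nonneg_left h3 (Nat.cast_nonneg d)
  have h3 := log_nlab d hd
  have h4 := log_Lbd d hd
  rw [← hℓ, ← hL2] at h3 h4
  rw [← hNl] at h3
  rw [← hLb] at h4
  push_cast at h1
  have hDd : (d : ℝ) + 1 ≤ 2 * d := by linarith
  have hX : 13 * L2 + 2 * ℓ ≥ 0 := by positivity
  have h5 : ((d : ℝ) + 1) * (13 * L2 + 2 * ℓ) ≤ 2 * d * (13 * L2 + 2 * ℓ) :=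
    mul_le_mul_of_nonneg_right hDd hX
  have hdℓ : ℓ ≤ (d : ℝ) * ℓ := by nlinarith
  have hdL : L2 ≤ (d : ℝ) * ℓ := by nlinarith
  have hdL2 : (d : ℝ) * L2 ≤ (d : ℝ) * ℓ := mul_le_mul_of_nonneg_left hL2ℓ (by linarith)
  nlinarith

lemma num_final :
    Real.sqrt (50 * Real.log (NT d (Rad d)) + 18 * (d : ℝ)) +
      (2 * Real.sqrt (Af d) + 1) ≤ Rad d := by
  have hd1 : (1 : ℝ) ≤ d := by exact_mod_cast hd
  set ℓ := Real.log ((d : ℝ) + 1) with hℓ
  set Q := (d : ℝ) * ℓ with hQ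
  have hL2ℓ : Real.log 2 ≤ ℓ := log_two_le_ell d hd
  have hL2 := Real.log_two_gt_d9
  have hL3 := Real.log_two_lt_d9
  have hℓ0 : 0 < ℓ := by linarith
  have hQ0 : 0 < Q := by positivity
  have hs := sqrtQ_low d hd
  rw [← hℓ, ← hQ] at hs
  have h1 := log_NT_le d hd
  rw [← hℓ, ← hQ] at h1
  have hdQ : (d : ℝ) * 0.6931 ≤ Q := by
    simp only [hQ]
    refine mul_le_mul_of_nonneg_left ?_ (by linarith)
    linarith
  have h2 : Real.sqrt (50 * Real.log (NT d (Rad d)) + 18 * (d : ℝ)) ≤ 80 * Real.sqrt Q := by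
    have h3 : 50 * Real.log (NT d (Rad d)) + 18 * (d : ℝ) ≤ (80 * Real.sqrt Q) ^ 2 := by
      rw [mul_pow, Real.sq_sqrt hQ0.le]
      nlinarith
    rw [Real.sqrt_le_left (by positivity)]
    exact h3
  have h4 : Real.sqrt (Af d) ≤ 450 * Real.sqrt Q := by
    have hab : Abar (d + 1) ≤ 101000 * ℓ := by
      simp only [Abar]
      rw [log_gapK_eq d hd, ← hℓ]
      have e1 := log_le_mul_log_two (x := 8000) (m := 13) (by norm_num) (by norm_num)
      push_cast at e1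
      nlinarith
    have hab0 := Abar_pos (d + 1) (by omega)
    have hDd : (d : ℝ) + 1 ≤ 2 * d := by linarith
    have h3 : Af d ≤ (450 * Real.sqrt Q) ^ 2 := by
      rw [mul_pow, Real.sq_sqrt hQ0.le]
      simp only [Af]
      calc ((d : ℝ) + 1) * Abar (d + 1) ≤ (2 * d) * (101000 * ℓ) :=
            mul_le_mul hDd hab hab0.le (by positivity)
        _ = 202000 * Q := by
            simp only [hQ]
            ring
        _ ≤ 450 ^ 2 * Q := by nlinarith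
    rw [Real.sqrt_le_left (by positivity)]
    exact h3
  calc _ ≤ 1000 * Real.sqrt Q := by linarith
    _ = Rad d := rfl

end params

end

end Vale.Agent.helper7.St
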