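import Vale.Agent.helper7.StarOrder

/-!
Order lemma for lists of labelled vectors in a finite dimensional subspace, with a cyclic rotation.
-/

open Finset

namespace Vale.Agent.helper7.St

noncomputable section

variable {E : Type*} [NormedAddCommGroup E] [InnerProductSpace ℝ E]

/-- Bound on all initial sums from the exponential cost. -/
lemma order_fin {d N : ℕ} (v : Fin N → Sp d) (hv : ∀ i, ‖v i‖ ≤ 1) (hz : ∑ i, v i = 0) :
    ∃ π : Equiv.Perm (Fin N), ∀ k : Fin N,
      ‖∑ i ∈ Finset.Iic k, v (π i)‖ ^ 2 ≤ 50 * Real.log (N : ℝ) + 18 * (d : ℝ) := by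
  obtain ⟨π, hπ⟩ := exists_good_order v hv hz
  refine ⟨π, fun k => ?_⟩
  have hN : (0 : ℝ) < N := by
    have : 0 < N := Fin.pos k
    exact_mod_cast this
  have h1 : Real.exp (‖∑ i ∈ Finset.Iic k, v (π i)‖ ^ 2 / 50) ≤ (N : ℝ) * (2 : ℝ) ^ ((d : ℝ) / 2) := by
    refine le_trans ?_ hπ
    unfold orderCost
    exact Finset.single_le_sum (f := fun k : Fin N =>
      Real.exp (‖∑ i ∈ Finset.Iic k, v (π i)‖ ^ 2 / 50)) (fun _ _ => (Real.exp_pos _).le)
      (Finset.mem_univ k)
  have hpos : (0 : ℝ) < (N : ℝ) * (2 : ℝ) ^ ((d : ℝ) / 2) := by positivity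
  have h2 := (Real.le_log_iff_exp_le hpos).mpr h1
  rw [Real.log_mul hN.ne' (by positivity), Real.log_rpow (by norm_num)] at h2
  have h3 : Real.log 2 ≤ 0.6931471808 := by
    have := Real.log_two_lt_d9
    linarith
  have hd : (0 : ℝ) ≤ d := by positivity
  nlinarith

/-- Sums of initial segments of `List.ofFn`. -/
lemma take_ofFn_sum {M : Type*} [AddCommMonoid M] {N : ℕ} (g : Fin N → M) (k : Fin N) :
    ((List.ofFn g).take (k.val + 1)).sum = ∑ i ∈ Finset.Iic k, g i := by
  classical
  have key : ∀ m : ℕ, m ≤ N → ((List.ofFn g).take m).sum =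
      ∑ i ∈ (Finset.univ.filter (fun i : Fin N => i.val < m)), g i := by
    intro m
    induction m with
    | zero =>
      intro _
      simp
    | succ m ih =>
      intro hm
      have hm' : m < (List.ofFn g).length := by simpa using hm
      rw [List.sum_take_succ _ _ hm', ih (by omega)]
      have hfilter : (Finset.univ.filter (fun i : Fin N => i.val < m + 1)) =
          insert (⟨m, hm⟩ : Fin N) (Finset.univ.filter (fun i : Fin N => i.val < m)) := by
        ext i
        simp only [Finset.mem_filter, Finset.mem_univ, true_and, Finset.mem_insert, Fin.ext_iff]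
        omega
      rw [hfilter, Finset.sum_insert (by simp)]
      simp [add_comm]
  rw [key _ (by omega)]
  refine Finset.sum_congr ?_ (fun _ _ => rfl)
  ext i
  simp only [Finset.mem_filter, Finset.mem_univ, true_and, Finset.mem_Iic, Fin.le_def]
  omega

/-- The order lemma for a list of labels, with vectors in a subspace of small dimension. -/
lemma order_list {α : Type*} (S : Submodule ℝ E) [FiniteDimensional ℝ S] (k : ℕ)
    (hk : Module.finrank ℝ S ≤ k) (X : List α) (f : α → E) (hS : ∀ x ∈ X, f x ∈ S)
    (hf : ∀ x ∈ X, ‖f x‖ ≤ 1) (hsum : (X.map f).sum = 0) :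
    ∃ X' : List α, X'.Perm X ∧ ∀ pre : List α, pre <+: X' →
      ‖(pre.map f).sum‖ ^ 2 ≤ 50 * Real.log (X.length : ℝ) + 18 * (k : ℝ) := by
  classical
  set N := X.length with hN
  set e := stdOrthonormalBasis ℝ S with he
  have hmem : ∀ i : Fin N, f (X.get (i.cast hN)) ∈ S := fun i => hS _ (List.get_mem _ _)
  let v : Fin N → Sp (Module.finrank ℝ S) := fun i => e.repr ⟨f (X.get (i.cast hN)), hmem i⟩
  have hvn : ∀ i, ‖v i‖ ≤ 1 := by
    intro i
    simp only [v]
    rw [LinearIsometryEquiv.norm_map]
    exact hf _ (List.get_mem _ _)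
  have hcoe : ∀ (T : Finset (Fin N)) (g : Fin N → Fin N),
      ∑ i ∈ T, v (g i) = e.repr ⟨∑ i ∈ T, f (X.get ((g i).cast hN)),
        Submodule.sum_mem _ (fun i _ => hmem (g i))⟩ := by
    intro T g
    simp only [v]
    rw [← map_sum]
    congr 1
    ext
    simp
  have hvz : ∑ i, v i = 0 := by
    have h0 := hcoe Finset.univ id
    simp only [id] at h0
    rw [h0]
    have hz : ∑ i : Fin N, f (X.get (i.cast hN)) = 0 := by
      have h1 : (X.map f).sum = ∑ i : Fin X.length, f (X.get i) := by
        conv_lhs => rw [← List.ofFn_get X]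
        rw [List.map_ofFn, List.sum_ofFn]
        rfl
      rw [hsum] at h1
      rw [h1]
      exact (Fintype.sum_equiv (Fin.castOrderIso hN).toEquiv _ _ (fun _ => rfl))
    calc _ = e.repr (0 : S) := by
          congr 1
          exact Subtype.ext (by simpa using hz)
      _ = 0 := map_zero _
  obtain ⟨π, hπ⟩ := order_fin v hvn hvz
  refine ⟨List.ofFn (fun i : Fin N => X.get ((π i).cast hN)), ?_, ?_⟩
  · have h1 := Equiv.Perm.ofFn_comp_perm π (fun i : Fin N => X.get (i.cast hN))
    have h2 : List.ofFn (fun i : Fin N => X.get (i.cast hN)) = X := by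
      have : List.ofFn (fun i : Fin N => X.get (i.cast hN)) = List.ofFn X.get := by
        rw [List.ofFn_congr hN.symm]
        rfl
      rw [this, List.ofFn_get]
    rw [h2] at h1
    exact h1
  · intro pre hpre
    obtain hlen | hlen := Nat.eq_zero_or_pos pre.length
    · have : pre = [] := List.eq_nil_of_length_eq_zero hlen
      subst this
      have hlog : 0 ≤ Real.log (N : ℝ) := Real.log_natCast_nonneg N
      have hk0 : (0 : ℝ) ≤ k := Nat.cast_nonneg k
      simp only [List.map_nil, List.sum_nil, norm_zero]
      nlinarith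
    · have hle : pre.length ≤ N := by
        have := hpre.length_le
        simpa using this
      set m := pre.length with hm
      have hk' : m - 1 < N := by omega
      let kk : Fin N := ⟨m - 1, hk'⟩
      have hpre' : pre = (List.ofFn (fun i : Fin N => X.get ((π i).cast hN))).take (kk.val + 1) := by
        have : kk.val + 1 = m := by
          simp only [kk]
          omega
        rw [this, hm]
        exact List.prefix_iff_eq_take.mp hpre
      have hsum' : (pre.map f).sum = ∑ i ∈ Finset.Iic kk, f (X.get ((π i).cast hN)) := by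
        rw [hpre', List.map_take, List.map_ofFn, take_ofFn_sum]
        rfl
      have h3 := hπ kk
      have h4 : ‖∑ i ∈ Finset.Iic kk, v (π i)‖ = ‖(pre.map f).sum‖ := by
        rw [hcoe, LinearIsometryEquiv.norm_map, hsum']
        rfl
      rw [h4] at h3
      have hr : ((Module.finrank ℝ S : ℕ) : ℝ) ≤ k := by exact_mod_cast hk
      linarith

/-- Cyclic rotation: start a path at its extreme point in the direction `p`. -/
lemma rotate_list {α : Type*} (X : List α) (f : α → E) (p : E) (I : ℝ)
    (hI : ∀ pre : List α, pre <+: X → ‖(pre.map f).sum‖ ≤ I) :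
    ∃ X' : List α, X'.Perm X ∧ ∀ pre : List α, pre <+: X' →
      inner ℝ p (pre.map f).sum ≤ max 0 (inner ℝ p (X.map f).sum) ∧
      ‖(pre.map f).sum‖ ≤ 2 * I + ‖(X.map f).sum‖ := by
  classical
  obtain ⟨m, hm, hmax⟩ : ∃ m ∈ Finset.range (X.length + 1), ∀ j ∈ Finset.range (X.length + 1),
      inner ℝ p ((X.take j).map f).sum ≤ inner ℝ p ((X.take m).map f).sum := by
    obtain ⟨m, hm, h⟩ := Finset.exists_max_image (Finset.range (X.length + 1))
      (fun j => inner ℝ p ((X.take j).map f).sum) ⟨0, by simp⟩
    exact ⟨m, hm, h⟩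
  have hmle : m ≤ X.length := by
    have := Finset.mem_range.mp hm
    omega
  have hsplit : X = X.take m ++ X.drop m := (List.take_append_drop m X).symm
  refine ⟨X.drop m ++ X.take m, ?_, ?_⟩
  · conv_rhs => rw [hsplit]
    exact List.perm_append_comm
  · intro pre hpre
    have hIm : ‖((X.take m).map f).sum‖ ≤ I := hI _ (List.take_prefix _ _)
    have htotal : (X.map f).sum = ((X.take m).map f).sum + ((X.drop m).map f).sum := by
      conv_lhs => rw [hsplit]
      simp
    obtain ⟨t, ht⟩ := hpre
    have hmaxY : ∀ Y : List α, Y <+: X →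
        inner ℝ p (Y.map f).sum ≤ inner ℝ p ((X.take m).map f).sum := by
      intro Y hY
      have hlen : Y.length ≤ X.length := hY.length_le
      have := hmax Y.length (Finset.mem_range.mpr (by omega))
      rwa [← List.prefix_iff_eq_take.mp hY] at this
    have hI0 : 0 ≤ I := by
      have := hI [] (List.nil_prefix)
      simpa using this
    rcases List.append_eq_append_iff.mp ht with ⟨a', h1, _⟩ | ⟨c', h1, h2⟩
    · have hpre1 : X.take m ++ pre <+: X := by
        refine ⟨a', ?_⟩
        rw [List.append_assoc, ← h1]
        exact List.take_append_drop m X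
      have hs : ((X.take m ++ pre).map f).sum = ((X.take m).map f).sum + (pre.map f).sum := by
        simp
      constructor
      · have h3 := hmaxY _ hpre1
        rw [hs, inner_add_right] at h3
        have h4 : inner ℝ p (pre.map f).sum ≤ 0 := by linarith
        exact le_trans h4 (le_max_left _ _)
      · have h3 := hI _ hpre1
        rw [hs] at h3
        have h4 : ‖(pre.map f).sum‖ ≤ ‖((X.take m).map f).sum + (pre.map f).sum‖ +
            ‖((X.take m).map f).sum‖ := by
          have := norm_sub_le (((X.take m).map f).sum + (pre.map f).sum) ((X.take m).map f).sum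
          simpa using this
        have h5 := norm_nonneg (X.map f).sum
        linarith
    · subst h1
      have hc : c' <+: X := by
        have h6 : c' <+: X.take m := ⟨t, h2.symm⟩
        exact h6.trans (List.take_prefix _ _)
      have hs : ((X.drop m ++ c').map f).sum =
          (X.map f).sum - ((X.take m).map f).sum + (c'.map f).sum := by
        rw [htotal, List.map_append, List.sum_append]
        abel
      constructor
      · rw [hs, inner_add_right, inner_sub_right]
        have h3 := hmaxY _ hc
        have h4 : inner ℝ p (X.map f).sum - inner ℝ p ((X.take m).map f).sum +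
            inner ℝ p (c'.map f).sum ≤ inner ℝ p (X.map f).sum := by linarith
        exact le_trans h4 (le_max_right _ _)
      · rw [hs]
        have h3 := hI _ hc
        have h4 := norm_add_le ((X.map f).sum - ((X.take m).map f).sum) (c'.map f).sum
        have h5 := norm_sub_le (X.map f).sum ((X.take m).map f).sum
        linarith

end

end Vale.Agent.helper7.St
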