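import Vale.Agent.helper7.St.Few

/-!
Cutting a path: the last exit decomposition with grid labels.
-/

open Finset

set_option linter.unusedSectionVars false

namespace Vale.Agent.helper7.St

noncomputable section

/-- Blocks whose two ends carry the same label. -/
def BlocksOK {β Λ : Type*} (lab : List β → Λ) : List β → List (List β) → Prop
  | _, [] => True
  | P, B :: bl => (B.length ≤ 1 ∨ lab P = lab (P ++ B)) ∧ BlocksOK lab (P ++ B) bl

/-- The last exit decomposition. -/
lemma last_exit {β Λ : Type*} [DecidableEq Λ] (lab : List β → Λ) :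
    ∀ (S : Finset Λ) (P A : List β), (∀ pre : List β, pre <+: A → lab (P ++ pre) ∈ S) →
      ∃ bl : List (List β), bl.flatten = A ∧ bl.length ≤ 2 * S.card ∧ BlocksOK lab P bl := by
  classical
  intro S
  induction S using Finset.strongInduction with
  | H S ih =>
    intro P A hlab
    set ℓ := lab P with hℓ
    have hℓS : ℓ ∈ S := by
      have := hlab [] List.nil_prefix
      simpa using this
    have hcard : 0 < S.card := Finset.card_pos.mpr ⟨ℓ, hℓS⟩
    let Q : ℕ → Prop := fun e => lab (P ++ A.take e) = ℓ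
    set e := Nat.findGreatest Q A.length with he
    have he1 : Q e := Nat.findGreatest_spec (P := Q) (m := 0) (n := A.length) (Nat.zero_le _)
      (by simp [Q, hℓ])
    have he2 : e ≤ A.length := Nat.findGreatest_le _
    have he3 : ∀ k, e < k → k ≤ A.length → ¬ Q k := fun k h1 h2 =>
      Nat.findGreatest_is_greatest (P := Q) h1 h2
    rcases Nat.lt_or_ge e A.length with hlt | hge
    · -- a further step
      have hd : A.drop e = A[e] :: A.drop (e + 1) := List.drop_eq_getElem_cons hlt
      have hA : A = A.take e ++ A[e] :: A.drop (e + 1) := by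
        rw [← hd, List.take_append_drop]
      set a := A[e] with ha
      set P' := P ++ (A.take e ++ [a]) with hP'
      have hlab' : ∀ pre : List β, pre <+: A.drop (e + 1) → lab (P' ++ pre) ∈ S.erase ℓ := by
        intro pre hpre
        have hp : (A.take e ++ [a]) ++ pre <+: A := by
          obtain ⟨t, ht⟩ := hpre
          refine ⟨t, ?_⟩
          conv_rhs => rw [hA, ← ht]
          simp
        refine Finset.mem_erase.mpr ⟨?_, ?_⟩
        · intro hEq
          have hlen : ((A.take e ++ [a]) ++ pre).length = e + 1 + pre.length := by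
            simp [List.length_take, Nat.min_eq_left he2]
            omega
          have hle : e + 1 + pre.length ≤ A.length := by
            have := hp.length_le
            omega
          refine he3 (e + 1 + pre.length) (by omega) hle ?_
          have htake : A.take (e + 1 + pre.length) = (A.take e ++ [a]) ++ pre := by
            rw [← hlen]
            exact (List.prefix_iff_eq_take.mp hp).symm
          simp only [Q]
          rw [htake, ← List.append_assoc, ← hP']
          exact hEq
        · have := hlab _ hp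
          rwa [← List.append_assoc, ← hP'] at this
      obtain ⟨bl, h1, h2, h3⟩ := ih (S.erase ℓ) (Finset.erase_ssubset hℓS) P' (A.drop (e + 1)) hlab'
      refine ⟨A.take e :: [a] :: bl, ?_, ?_, ?_⟩
      · simp only [List.flatten_cons, h1]
        conv_rhs => rw [hA]
        simp
      · rw [Finset.card_erase_of_mem hℓS] at h2
        simp only [List.length_cons]
        omega
      · refine ⟨Or.inr ?_, Or.inl (by simp), ?_⟩
        · exact he1.symm
        · have : P ++ A.take e ++ [a] = P' := by simp [hP']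
          rw [this]
          exact h3
    · have hEq : e = A.length := le_antisymm he2 hge
      refine ⟨[A], by simp, by simp; omega, ?_, trivial⟩
      refine Or.inr ?_
      have h1 : Q e := he1
      simp only [Q, hEq, List.take_length] at h1
      exact h1.symm

lemma blocks_good {β Λ : Type*} (lab : List β → Λ) (Z : List β) (Φ : List β → Prop)
    (h : ∀ P B : List β, (P ++ B) <+: Z → (B.length ≤ 1 ∨ lab P = lab (P ++ B)) → Φ B) :
    ∀ (bl : List (List β)) (P : List β), (P ++ bl.flatten) <+: Z → BlocksOK lab P bl →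
      ∀ B ∈ bl, Φ B := by
  intro bl
  induction bl with
  | nil => intro P _ _ B hB; simp at hB
  | cons B0 bl ih =>
    intro P hP hOK B hB
    have hP1 : (P ++ B0) <+: Z := by
      refine List.IsPrefix.trans ⟨bl.flatten, ?_⟩ hP
      simp
    rcases List.mem_cons.mp hB with rfl | hB
    · exact h P B hP1 hOK.1
    · refine ih (P ++ B0) ?_ hOK.2 B hB
      simpa using hP

/-! ### The grid -/

/-- Grid cell of a point. -/
def grid {d : ℕ} (s : ℝ) (x : Sp d) : Fin d → ℤ := fun i => ⌊x.ofLp i / s⌋

lemma grid_close {d : ℕ} {s : ℝ} (hs : 0 < s) {x y : Sp d} (h : grid s x = grid s y) :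
    ‖x - y‖ ≤ ((d : ℝ) + 1) * s := by
  have hc : ∀ i : Fin d, |x.ofLp i - y.ofLp i| ≤ s := by
    intro i
    have h1 : ⌊x.ofLp i / s⌋ = ⌊y.ofLp i / s⌋ := congrFun h i
    have h2 := Int.abs_sub_lt_one_of_floor_eq_floor h1
    have h3 : x.ofLp i / s - y.ofLp i / s = (x.ofLp i - y.ofLp i) / s := by ring
    rw [h3, abs_div, abs_of_pos hs, div_lt_one hs] at h2
    exact h2.le
  have h1 : ‖x - y‖ ^ 2 ≤ (((d : ℝ) + 1) * s) ^ 2 := by
    rw [EuclideanSpace.real_norm_sq_eq]
    have h2 : ∑ i : Fin d, (x - y).ofLp i ^ 2 ≤ ∑ _i : Fin d, s ^ 2 := by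
      refine Finset.sum_le_sum (fun i _ => ?_)
      have h3 := hc i
      have h4 : (x - y).ofLp i = x.ofLp i - y.ofLp i := rfl
      rw [h4]
      exact sq_le_sq' (by linarith [(abs_le.mp h3).1]) (abs_le.mp h3).2
    have h3 : ∑ _i : Fin d, s ^ 2 = (d : ℝ) * s ^ 2 := by simp
    rw [h3] at h2
    have hd : (0 : ℝ) ≤ d := Nat.cast_nonneg d
    have hs2 : 0 ≤ s ^ 2 := sq_nonneg s
    nlinarith
  exact abs_le_of_sq_le_sq' h1 (by positivity) |>.2

/-- The cells of a ball. -/
def gridCells (d κ : ℕ) : Finset (Fin d → ℤ) :=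
  Fintype.piFinset (fun _ => Finset.Icc (-(κ : ℤ)) (κ : ℤ))

lemma gridCells_card (d κ : ℕ) : (gridCells d κ).card = (2 * κ + 1) ^ d := by
  simp only [gridCells, Fintype.card_piFinset, Int.card_Icc]
  have : ((κ : ℤ) + 1 - -(κ : ℤ)).toNat = 2 * κ + 1 := by omega
  rw [this]
  simp

lemma grid_mem {d : ℕ} {s B : ℝ} (hs : 0 < s) {x : Sp d} (hx : ‖x‖ ≤ B) :
    grid s x ∈ gridCells d ⌈B / s⌉₊ := by
  simp only [gridCells, Fintype.mem_piFinset, Finset.mem_Icc]
  intro i
  have h0 : |x.ofLp i| ≤ B := by
    have := PiLp.norm_apply_le x i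
    rw [Real.norm_eq_abs] at this
    linarith
  have hB0 : 0 ≤ B := le_trans (abs_nonneg _) h0
  have h1 : B / s ≤ (⌈B / s⌉₊ : ℝ) := Nat.le_ceil _
  have h2 : x.ofLp i / s ≤ B / s := div_le_div_of_nonneg_right (abs_le.mp h0).2 hs.le
  have h3 : -(B / s) ≤ x.ofLp i / s := by
    rw [← neg_div]
    exact div_le_div_of_nonneg_right (abs_le.mp h0).1 hs.le
  simp only [grid]
  constructor
  · apply Int.le_floor.mpr
    push_cast
    linarith
  · have h4 : ((⌊x.ofLp i / s⌋ : ℤ) : ℝ) ≤ x.ofLp i / s := Int.floor_le _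
    have h5 : ((⌊x.ofLp i / s⌋ : ℤ) : ℝ) ≤ ((⌈B / s⌉₊ : ℕ) : ℝ) := by linarith
    exact_mod_cast h5

/-! ### Cutting a path -/

/-- Number of labels. -/
def nlab (d : ℕ) (A V : ℝ) : ℕ :=
  (2 * ⌈Real.sqrt A / (1 / (4 * ((d : ℝ) + 1)))⌉₊ + 1) ^ d * (⌊4 * V⌋₊ + 1)

lemma sum_map_nonneg' {β : Type*} (g : β → ℝ) (hg : ∀ b, 0 ≤ g b) (X : List β) :
    0 ≤ (X.map g).sum := by
  induction X with
  | nil => simp
  | cons b X ih =>
    simp only [List.map_cons, List.sum_cons]
    exact add_nonneg (hg b) ih

lemma norm_map_sum_le' {β E : Type*} [NormedAddCommGroup E] (g : β → E) (X : List β) :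
    ‖(X.map g).sum‖ ≤ (X.map (fun b => ‖g b‖)).sum := by
  induction X with
  | nil => simp
  | cons b X ih =>
    simp only [List.map_cons, List.sum_cons]
    exact (norm_add_le _ _).trans (by linarith)

theorem path_blocks {d : ℕ} {β : Type*} (Z : List β) (y g f : β → Sp d) (A V η : ℝ)
    (hη : η ≤ 1 / 4)
    (H1 : ∀ pre : List β, pre <+: Z → ‖(pre.map (fun b => y b - g b)).sum‖ ^ 2 ≤ A)
    (H2 : (Z.map (fun b => ‖g b‖)).sum ≤ V)
    (H3 : ∀ pre : List β, pre <+: Z → ‖(pre.map (fun b => f b - y b)).sum‖ ≤ η)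
    (H4 : ∀ b ∈ Z, ‖f b‖ ≤ 1) :
    ∃ bl : List (List β), bl.flatten = Z ∧ bl.length ≤ 2 * nlab d A V ∧
      ∀ B ∈ bl, ‖(B.map f).sum‖ ≤ 1 ∧
        ∀ pre : List β, pre <+: B → ‖(pre.map f).sum‖ ≤ 2 * Real.sqrt A + 1 := by
  classical
  set s : ℝ := 1 / (4 * ((d : ℝ) + 1)) with hs
  have hd1 : (0 : ℝ) < (d : ℝ) + 1 := by positivity
  have hs0 : 0 < s := by positivity
  have hsd : ((d : ℝ) + 1) * s = 1 / 4 := by
    simp only [hs]
    field_simp
  let X1 : List β → Sp d := fun pre => (pre.map (fun b => y b - g b)).sum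
  let T : List β → ℝ := fun pre => (pre.map (fun b => ‖g b‖)).sum
  have hT0 : ∀ pre, 0 ≤ T pre := fun pre => sum_map_nonneg' _ (fun b => norm_nonneg _) pre
  have hTapp : ∀ P B : List β, T (P ++ B) = T P + T B := by
    intro P B
    simp [T]
  have hX1app : ∀ P B : List β, X1 (P ++ B) = X1 P + X1 B := by
    intro P B
    simp [X1]
  have hTZ : ∀ pre : List β, pre <+: Z → T pre ≤ V := by
    intro pre hpre
    obtain ⟨t, ht⟩ := hpre
    have h1 : T Z = T pre + T t := by rw [← ht, hTapp]
    have h2 := hT0 t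
    have h3 : T Z ≤ V := H2
    linarith
  have hsqrt : ∀ pre : List β, pre <+: Z → ‖X1 pre‖ ≤ Real.sqrt A :=
    fun pre hpre => Real.le_sqrt_of_sq_le (H1 pre hpre)
  have hA0 : 0 ≤ Real.sqrt A := Real.sqrt_nonneg A
  let lab : List β → (Fin d → ℤ) × ℕ := fun pre => (grid s (X1 pre), ⌊4 * T pre⌋₊)
  set κ := ⌈Real.sqrt A / s⌉₊ with hκ
  let SS : Finset ((Fin d → ℤ) × ℕ) := gridCells d κ ×ˢ Finset.range (⌊4 * V⌋₊ + 1)
  have hSS : SS.card = nlab d A V := by
    simp only [SS, Finset.card_product, gridCells_card, Finset.card_range, nlab]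
    rfl
  have hmem : ∀ pre : List β, pre <+: Z → lab ([] ++ pre) ∈ SS := by
    intro pre hpre
    simp only [List.nil_append, SS, lab, Finset.mem_product, Finset.mem_range]
    refine ⟨grid_mem hs0 (hsqrt pre hpre), ?_⟩
    have h1 := hTZ pre hpre
    have h2 : ⌊4 * T pre⌋₊ ≤ ⌊4 * V⌋₊ := Nat.floor_le_floor (by linarith)
    omega
  obtain ⟨bl, h1, h2, h3⟩ := last_exit lab SS [] Z hmem
  refine ⟨bl, h1, ?_, ?_⟩
  · rw [← hSS]
    exact h2
  · refine blocks_good lab Z _ ?_ bl [] (by simp [h1]) h3
    intro P B hPB hcase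
    have hPz : P <+: Z := (List.prefix_append P B).trans hPB
    -- differences of the actual path
    have hdiff : ∀ Y : List β, (P ++ Y) <+: Z →
        ‖(Y.map (fun b => f b - y b)).sum‖ ≤ 1 / 2 := by
      intro Y hY
      have e1 := H3 _ hY
      have e2 := H3 _ hPz
      simp only [List.map_append, List.sum_append] at e1
      have e3 := norm_sub_le ((P.map (fun b => f b - y b)).sum + (Y.map (fun b => f b - y b)).sum)
        (P.map (fun b => f b - y b)).sum
      rw [add_sub_cancel_left] at e3
      linarith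
    have hfy : ∀ Y : List β, (Y.map f).sum = (Y.map y).sum + (Y.map (fun b => f b - y b)).sum := by
      intro Y
      induction Y with
      | nil => simp
      | cons b Y ih =>
        simp only [List.map_cons, List.sum_cons, ih]
        abel
    have hyx : ∀ Y : List β, (Y.map y).sum = X1 Y + (Y.map g).sum := by
      intro Y
      induction Y with
      | nil => simp [X1]
      | cons b Y ih =>
        simp only [X1, List.map_cons, List.sum_cons] at ih ⊢
        rw [ih]
        abel
    rcases Nat.lt_or_ge 1 B.length with hlen | hlen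
    · have hEq : lab P = lab (P ++ B) := by
        rcases hcase with hc | hc
        · omega
        · exact hc
      have hg : grid s (X1 P) = grid s (X1 (P ++ B)) := congrArg Prod.fst hEq
      have hfl : ⌊4 * T P⌋₊ = ⌊4 * T (P ++ B)⌋₊ := congrArg Prod.snd hEq
      have hX := grid_close hs0 hg
      rw [hsd] at hX
      have hTB : T B ≤ 1 / 4 := by
        have e0 := hT0 P
        have e1 : (⌊4 * T P⌋₊ : ℝ) ≤ 4 * T P := Nat.floor_le (by linarith)
        have e2 : 4 * T (P ++ B) < ⌊4 * T (P ++ B)⌋₊ + 1 := Nat.lt_floor_add_one _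
        rw [← hfl, hTapp] at e2
        rw [hTapp] at hfl
        linarith
      have hXB : ‖X1 B‖ ≤ 1 / 4 := by
        have e : X1 B = -(X1 P - X1 (P ++ B)) := by
          rw [hX1app]
          abel
        rw [e, norm_neg]
        exact hX
      have hpre : ∀ pre : List β, pre <+: B → T pre ≤ 1 / 4 := by
        intro pre hp
        obtain ⟨t, ht⟩ := hp
        have e1 : T B = T pre + T t := by rw [← ht, hTapp]
        have e2 := hT0 t
        linarith
      constructor
      · rw [hfy, hyx]
        have e1 := hdiff B hPB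
        have e2 : ‖(B.map g).sum‖ ≤ T B := norm_map_sum_le' g B
        have e3 := norm_add_le (X1 B + (B.map g).sum) (B.map (fun b => f b - y b)).sum
        have e4 := norm_add_le (X1 B) (B.map g).sum
        linarith
      · intro pre hp
        have hPp : (P ++ pre) <+: Z := by
          refine List.IsPrefix.trans ?_ hPB
          exact (List.prefix_append_right_inj P).mpr hp
        rw [hfy, hyx]
        have e1 := hdiff pre hPp
        have e2 : ‖(pre.map g).sum‖ ≤ T pre := norm_map_sum_le' g pre
        have e2' := hpre pre hp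
        have e3 := norm_add_le (X1 pre + (pre.map g).sum) (pre.map (fun b => f b - y b)).sum
        have e4 := norm_add_le (X1 pre) (pre.map g).sum
        have e5 : ‖X1 pre‖ ≤ 2 * Real.sqrt A := by
          have e6 := hsqrt _ hPp
          have e7 := hsqrt _ hPz
          rw [hX1app] at e6
          have e8 := norm_sub_le (X1 P + X1 pre) (X1 P)
          rw [add_sub_cancel_left] at e8
          linarith
        linarith
    · -- blocks of length at most one
      have hB : ∀ b ∈ B, ‖f b‖ ≤ 1 := by
        intro b hb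
        refine H4 b ?_
        obtain ⟨t, ht⟩ := hPB
        rw [← ht]
        simp [hb]
      have hone : ∀ Y : List β, Y.length ≤ 1 → (∀ b ∈ Y, ‖f b‖ ≤ 1) → ‖(Y.map f).sum‖ ≤ 1 := by
        intro Y hY hb
        match Y, hY, hb with
        | [], _, _ => simp
        | [c], _, hb => simpa using hb c (by simp)
      refine ⟨hone B hlen hB, ?_⟩
      intro pre hp
      have e1 := hone pre (hp.length_le.trans hlen) (fun b hb => hB b (hp.subset hb))
      linarith

end

end Vale.Agent.helper7.St
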