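import Vale.Agent.helper7.St.Path

/-!
Rays: Caratheodory decomposition of the multiplicities, and the path of one ray for actual items.
-/

open Finset

set_option linter.unusedSectionVars false

namespace Vale.Agent.helper7.St

noncomputable section

variable {E : Type*} [NormedAddCommGroup E] [InnerProductSpace ℝ E] {ι : Type*}

/-- From segments to pairs of a jump and the drift before it. -/
lemma conv_list (u : ι → E) (A : ℝ) (L : List (Seg ι E)) :
    ∀ (b acc : E), ‖b‖ ^ 2 ≤ A → Bdd u A (b - acc) L →
      ∃ Z0 : List (ι × E), Z0.map Prod.fst = tags L ∧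
        (∀ pre : List (ι × E), pre <+: Z0 →
          ‖b + (pre.map (fun z => u z.1 - z.2)).sum‖ ^ 2 ≤ A) ∧
        (Z0.map (fun z => ‖z.2‖)).sum ≤ ‖acc‖ + (L.map (fun s => ‖s.dur • s.w‖)).sum := by
  induction L with
  | nil =>
    intro b acc hb _
    refine ⟨[], rfl, ?_, ?_⟩
    · intro pre hpre
      have : pre = [] := List.prefix_nil.mp hpre
      subst this
      simpa using hb
    · simp
  | cons s L ih =>
    intro b acc hb hB
    obtain ⟨h1, h2, h3⟩ := hB
    rcases htag : s.tag with _ | j
    · have e : b - acc + eff u s = b - (acc + s.dur • s.w) := by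
        simp only [eff, jv_eq, htag, jvo]
        abel
      rw [e] at h3
      obtain ⟨Z0, e1, e2, e3⟩ := ih b (acc + s.dur • s.w) hb h3
      refine ⟨Z0, ?_, e2, ?_⟩
      · rw [e1, tags_cons, htag]
        simp
      · simp only [List.map_cons, List.sum_cons]
        have := norm_add_le acc (s.dur • s.w)
        linarith
    · have e : b - acc + eff u s = (b - acc + u j) - s.dur • s.w := by
        simp only [eff, jv_eq, htag, jvo]
        abel
      rw [e] at h3
      have h1' : ‖b - acc + u j‖ ^ 2 ≤ A := by
        simpa [jv_eq, htag, jvo] using h1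
      obtain ⟨Z0, e1, e2, e3⟩ := ih (b - acc + u j) (s.dur • s.w) h1' h3
      refine ⟨(j, acc) :: Z0, ?_, ?_, ?_⟩
      · simp only [List.map_cons, e1, tags_cons, htag]
        simp
      · intro pre hpre
        rcases pre with _ | ⟨z, pre⟩
        · simpa using hb
        · obtain ⟨t, ht⟩ := hpre
          simp only [List.cons_append, List.cons.injEq] at ht
          obtain ⟨rfl, ht⟩ := ht
          have := e2 pre ⟨t, ht⟩
          simp only [List.map_cons, List.sum_cons]
          have e4 : b + (u j - acc + (pre.map (fun z => u z.1 - z.2)).sum) =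
              b - acc + u j + (pre.map (fun z => u z.1 - z.2)).sum := by abel
          rw [e4]
          exact this
      · simp only [List.map_cons, List.sum_cons]
        linarith

/-- Attaching the actual items to the jumps. -/
lemma instantiate {F α : Type*} [DecidableEq ι] (Z0 : List (ι × F)) :
    ∀ Q : ι → List α, (∀ j, (Z0.map Prod.fst).count j ≤ (Q j).length) →
      ∃ (Z : List (α × ι × F)) (Q' : ι → List α), Z.map Prod.snd = Z0 ∧
        ∀ j, Q j = ((Z.filter (fun b => b.2.1 = j)).map Prod.fst) ++ Q' j := by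
  induction Z0 with
  | nil =>
    intro Q _
    exact ⟨[], Q, rfl, by simp⟩
  | cons z Z1 ih =>
    intro Q hQ
    obtain ⟨j0, g⟩ := z
    have h0 := hQ j0
    simp only [List.map_cons, List.count_cons_self] at h0
    obtain ⟨a, Qt, hQt⟩ : ∃ a Qt, Q j0 = a :: Qt := by
      rcases hq : Q j0 with _ | ⟨a, Qt⟩
      · rw [hq] at h0
        simp at h0
      · exact ⟨a, Qt, rfl⟩
    let Q1 : ι → List α := Function.update Q j0 Qt
    have hQ1 : ∀ j, (Z1.map Prod.fst).count j ≤ (Q1 j).length := by
      intro j
      by_cases hj : j = j0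
      · subst hj
        simp only [Q1, Function.update_self]
        rw [hQt] at h0
        simpa using h0
      · simp only [Q1, Function.update_of_ne hj]
        have := hQ j
        simp only [List.map_cons] at this
        rw [List.count_cons_of_ne (fun h => hj h.symm)] at this
        exact this
    obtain ⟨Z, Q', h1, h2⟩ := ih Q1 hQ1
    refine ⟨(a, j0, g) :: Z, Q', by simp [h1], ?_⟩
    intro j
    by_cases hj : j = j0
    · subst hj
      have e := h2 j
      simp only [Q1, Function.update_self] at e
      rw [hQt, e]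
      simp
    · have e := h2 j
      simp only [Q1, Function.update_of_ne hj] at e
      rw [e, List.filter_cons_of_neg (by simpa using fun h => hj h.symm)]

/-- A list sum sorted by tags. -/
lemma sum_by_tag {β M : Type*} [DecidableEq ι] [AddCommMonoid M] (tag : β → ι) (F : β → M)
    (S : Finset ι) (pre : List β) (h : ∀ b ∈ pre, tag b ∈ S) :
    (pre.map F).sum = ∑ j ∈ S, ((pre.filter (fun b => tag b = j)).map F).sum := by
  induction pre with
  | nil => simp
  | cons b pre ih =>
    have ih' := ih (fun c hc => h c (List.mem_cons_of_mem _ hc))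
    have hb := h b List.mem_cons_self
    simp only [List.map_cons, List.sum_cons]
    rw [ih']
    have e : ∀ j ∈ S, (((b :: pre).filter (fun c => tag c = j)).map F).sum =
        (if tag b = j then F b else 0) + ((pre.filter (fun c => tag c = j)).map F).sum := by
      intro j _
      by_cases hj : tag b = j
      · rw [List.filter_cons_of_pos (by simpa using hj)]
        simp [hj]
      · rw [List.filter_cons_of_neg (by simpa using hj)]
        simp [hj]
    rw [Finset.sum_congr rfl e, Finset.sum_add_distrib, Finset.sum_ite_eq, if_pos hb]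

lemma coe_eq_sum_singletons {α : Type*} (Y : List α) :
    (Y : Multiset α) = (Y.map (fun x => ({x} : Multiset α))).sum := by
  induction Y with
  | nil => simp
  | cons x Y ih =>
    simp only [List.map_cons, List.sum_cons, ← ih]
    simp

lemma coe_by_tag {β α : Type*} [DecidableEq ι] (tag : β → ι) (F : β → α) (S : Finset ι)
    (pre : List β) (h : ∀ b ∈ pre, tag b ∈ S) :
    ((pre.map F : List α) : Multiset α) =
      ∑ j ∈ S, (((pre.filter (fun b => tag b = j)).map F : List α) : Multiset α) := by
  rw [coe_eq_sum_singletons, List.map_map]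
  rw [sum_by_tag tag (({·} : α → Multiset α) ∘ F) S pre h]
  refine Finset.sum_congr rfl (fun j _ => ?_)
  rw [coe_eq_sum_singletons, List.map_map]

lemma length_filter_tag {β : Type*} [DecidableEq ι] (tag : β → ι) (Z : List β) (j : ι) :
    (Z.filter (fun b => tag b = j)).length = (Z.map tag).count j := by
  induction Z with
  | nil => simp
  | cons b Z ih =>
    by_cases hj : tag b = j
    · rw [List.filter_cons_of_pos (by simpa using hj)]
      simp [ih, hj]
    · rw [List.filter_cons_of_neg (by simpa using hj)]
      simp only [List.map_cons]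
      rw [List.count_cons_of_ne hj, ih]

/-- The Caratheodory step. -/
lemma exists_ray [DecidableEq ι] {d : ℕ} (S : Finset ι) (v : ι → Sp d) (m : ι → ℝ)
    (hm : ∀ c ∈ S, 0 ≤ m c) (hsum : ∑ c ∈ S, m c • v c = 0)
    (hne : (S.filter (fun c => m c ≠ 0)).Nonempty) :
    ∃ r : ι → ℝ, (∀ c ∈ S, 0 ≤ r c ∧ r c ≤ m c) ∧ ∑ c ∈ S, r c • v c = 0 ∧
      (S.filter (fun c => r c ≠ 0)).card ≤ d + 1 ∧
      (S.filter (fun c => m c - r c ≠ 0)).card < (S.filter (fun c => m c ≠ 0)).card := by
  classical
  set T := S.filter (fun c => m c ≠ 0) with hT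
  have hTS : T ⊆ S := Finset.filter_subset _ _
  have hTpos : ∀ c ∈ T, 0 < m c := by
    intro c hc
    obtain ⟨h1, h2⟩ := Finset.mem_filter.mp hc
    exact lt_of_le_of_ne (hm c h1) (Ne.symm h2)
  set M := ∑ c ∈ T, m c with hM
  have hM0 : 0 < M := Finset.sum_pos hTpos hne
  have hsumT : ∑ c ∈ T, m c • v c = 0 := by
    have e : ∑ c ∈ T, m c • v c = ∑ c ∈ S, m c • v c := by
      rw [hT, Finset.sum_filter]
      refine Finset.sum_congr rfl (fun c _ => ?_)
      by_cases hc : m c = 0
      · simp [hc]
      · simp [hc]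
    rw [e, hsum]
  have h0mem : (0 : Sp d) ∈ convexHull ℝ (v '' (T : Set ι)) := by
    have h1 : ∑ c ∈ T, (m c / M) • v c = 0 := by
      have : ∀ c ∈ T, (m c / M) • v c = (1 / M) • (m c • v c) := by
        intro c _
        rw [smul_smul]
        congr 1
        ring
      rw [Finset.sum_congr rfl this, ← Finset.smul_sum, hsumT, smul_zero]
    rw [← h1]
    refine (convex_convexHull ℝ _).sum_mem (fun c hc => (div_pos (hTpos c hc) hM0).le) ?_
      (fun c hc => subset_convexHull ℝ _ ⟨c, hc, rfl⟩)
    rw [← Finset.sum_div, div_self hM0.ne']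
  obtain ⟨ι', _, z, w, hrange, hAI, hw, hw1, hw0⟩ := eq_pos_convex_span_of_mem_convexHull h0mem
  have hex : ∀ i : ι', ∃ c ∈ T, v c = z i := by
    intro i
    obtain ⟨c, hc, hcz⟩ := hrange ⟨i, rfl⟩
    exact ⟨c, hc, hcz⟩
  choose c' hc'T hc'v using hex
  set T' := Finset.univ.image c' with hT'
  have hT'T : T' ⊆ T := by
    intro x hx
    obtain ⟨i, _, rfl⟩ := Finset.mem_image.mp hx
    exact hc'T i
  have hι' : Nonempty ι' := by
    by_contra hempty
    rw [not_nonempty_iff] at hempty
    simp at hw1
  have hT'ne : T'.Nonempty := by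
    obtain ⟨i⟩ := hι'
    exact ⟨c' i, Finset.mem_image_of_mem _ (Finset.mem_univ i)⟩
  let r0 : ι → ℝ := fun x => ∑ i, if c' i = x then w i else 0
  have hr0pos : ∀ x ∈ T', 0 < r0 x := by
    intro x hx
    obtain ⟨i, _, rfl⟩ := Finset.mem_image.mp hx
    refine Finset.sum_pos' (fun j _ => ?_) ⟨i, Finset.mem_univ i, ?_⟩
    · split_ifs
      · exact (hw j).le
      · exact le_rfl
    · simp [hw i]
  have hr0zero : ∀ x, x ∉ T' → r0 x = 0 := by
    intro x hx
    refine Finset.sum_eq_zero (fun i _ => ?_)
    rw [if_neg]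
    intro h
    exact hx (h ▸ Finset.mem_image_of_mem _ (Finset.mem_univ i))
  have hr0sum : ∑ x ∈ T', r0 x • v x = 0 := by
    have e1 : ∀ x ∈ T', r0 x • v x = ∑ i, if c' i = x then w i • v x else 0 := by
      intro x _
      simp only [r0, Finset.sum_smul]
      refine Finset.sum_congr rfl (fun i _ => ?_)
      split_ifs <;> simp
    rw [Finset.sum_congr rfl e1, Finset.sum_comm]
    have e2 : ∀ i : ι', ∑ x ∈ T', (if c' i = x then w i • v x else 0) = w i • z i := by
      intro i
      rw [Finset.sum_ite_eq, if_pos (Finset.mem_image_of_mem _ (Finset.mem_univ i)), hc'v]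
    rw [Finset.sum_congr rfl (fun i _ => e2 i), hw0]
  have hcard : T'.card ≤ d + 1 := by
    have h1 : T'.card ≤ Fintype.card ι' := Finset.card_image_le
    have h2 := hAI.card_le_finrank_succ
    have h3 : Module.finrank ℝ (vectorSpan ℝ (Set.range z)) ≤ Module.finrank ℝ (Sp d) :=
      Submodule.finrank_le _
    have h4 : Module.finrank ℝ (Sp d) = d := by simp
    omega
  obtain ⟨x0, hx0, hmin⟩ := T'.exists_min_image (fun x => m x / r0 x) hT'ne
  set t := m x0 / r0 x0 with ht
  have hr00 := hr0pos x0 hx0
  have hm00 := hTpos x0 (hT'T hx0)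
  have ht0 : 0 < t := div_pos hm00 hr00
  refine ⟨fun x => t * r0 x, ?_, ?_, ?_, ?_⟩
  · intro c hcS
    by_cases hc : c ∈ T'
    · have h1 := hr0pos c hc
      refine ⟨(mul_pos ht0 h1).le, ?_⟩
      have h2 := hmin c hc
      rwa [le_div_iff₀ h1] at h2
    · simp only [hr0zero c hc, mul_zero]
      exact ⟨le_rfl, hm c hcS⟩
  · have e : ∑ c ∈ S, r0 c • v c = ∑ c ∈ T', r0 c • v c := by
      symm
      refine Finset.sum_subset (hT'T.trans hTS) (fun x _ hx => ?_)
      simp [hr0zero x hx]
    simp only [← smul_smul]
    rw [← Finset.smul_sum, e, hr0sum, smul_zero]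
  · refine le_trans (Finset.card_le_card ?_) hcard
    intro c hc
    obtain ⟨-, h2⟩ := Finset.mem_filter.mp hc
    by_contra hnot
    exact h2 (by simp [hr0zero c hnot])
  · have hx0e : t * r0 x0 = m x0 := by
      simp only [ht]
      field_simp
    refine Finset.card_lt_card ⟨?_, ?_⟩
    · intro c hc
      obtain ⟨h1, h2⟩ := Finset.mem_filter.mp hc
      refine Finset.mem_filter.mpr ⟨h1, ?_⟩
      intro h3
      have hcT : c ∉ T := by
        intro h4
        exact (Finset.mem_filter.mp h4).2 h3
      have hcT' : c ∉ T' := fun h4 => hcT (hT'T h4)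
      apply h2
      simp [hr0zero c hcT', h3]
    · intro hss
      have h1 := hss (hT'T hx0)
      obtain ⟨-, h2⟩ := Finset.mem_filter.mp h1
      apply h2
      simp only
      rw [hx0e]
      ring

end

end Vale.Agent.helper7.St
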