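import Vale.Agent.helper7.St.Window

/-!
Refinement of a path: cutting runs into pieces of comparable duration.
-/

open Finset

set_option linter.unusedSectionVars false

namespace Vale.Agent.helper7.St

noncomputable section

variable {E : Type*} [NormedAddCommGroup E] [InnerProductSpace ℝ E] {ι : Type*}

lemma interp_bdd {x0 w : E} {d c A : ℝ} (h0 : ‖x0‖ ^ 2 ≤ A) (h1 : ‖x0 - d • w‖ ^ 2 ≤ A)
    (hc0 : 0 ≤ c) (hcd : c ≤ d) : ‖x0 - c • w‖ ^ 2 ≤ A := by
  rcases eq_or_lt_of_le (hc0.trans hcd) with hd | hd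
  · have hc : c = 0 := le_antisymm (by linarith) hc0
    subst hc
    simpa using h0
  · set θ := c / d with hθ
    have hθ0 : 0 ≤ θ := div_nonneg hc0 hd.le
    have hθ1 : θ ≤ 1 := (div_le_one hd).mpr hcd
    have e : x0 - c • w = (1 - θ) • x0 + θ • (x0 - d • w) := by
      have : c = θ * d := by
        simp only [hθ]
        field_simp
      rw [this]
      module
    rw [e]
    have h2 := norm_sq_convex x0 (x0 - d • w) hθ0 hθ1
    have h3 := mul_le_mul_of_nonneg_left h0 (sub_nonneg.mpr hθ1)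
    have h4 := mul_le_mul_of_nonneg_left h1 hθ0
    nlinarith

/-- A run cut into equal pieces. -/
lemma replicate_bdd (u : ι → E) (x0 w : E) (τ A : ℝ) (hτ : 0 ≤ τ) (r : ℕ)
    (h0 : ‖x0‖ ^ 2 ≤ A) (h1 : ‖x0 - ((r : ℝ) * τ) • w‖ ^ 2 ≤ A) :
    ∀ (r' i : ℕ), i + r' = r →
      Bdd u A (x0 - ((i : ℝ) * τ) • w) (List.replicate r' (⟨none, τ, w⟩ : Seg ι E)) ∧
      endv u (x0 - ((i : ℝ) * τ) • w) (List.replicate r' (⟨none, τ, w⟩ : Seg ι E)) =
        x0 - ((r : ℝ) * τ) • w := by
  intro r'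
  induction r' with
  | zero =>
    intro i hi
    have : i = r := by omega
    subst this
    simp [Bdd]
  | succ r' ih =>
    intro i hi
    have hstep : x0 - ((i : ℝ) * τ) • w + eff u (⟨none, τ, w⟩ : Seg ι E) =
        x0 - (((i + 1 : ℕ) : ℝ) * τ) • w := by
      simp only [eff, jv]
      push_cast
      module
    have hle : ((i + 1 : ℕ) : ℝ) ≤ r := by
      exact_mod_cast (by omega : i + 1 ≤ r)
    have hi0 : ((i + 1 : ℕ) : ℝ) * τ ≤ (r : ℝ) * τ := mul_le_mul_of_nonneg_right hle hτ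
    have hIH := ih (i + 1) (by omega)
    constructor
    · refine ⟨?_, ?_, ?_⟩
      · have e : x0 - ((i : ℝ) * τ) • w + jv u (⟨none, τ, w⟩ : Seg ι E) =
            x0 - ((i : ℝ) * τ) • w := by
          simp [jv]
        rw [e]
        refine interp_bdd h0 h1 (by positivity) ?_
        have : (i : ℝ) ≤ r := by exact_mod_cast (by omega : i ≤ r)
        exact mul_le_mul_of_nonneg_right this hτ
      · rw [hstep]
        exact interp_bdd h0 h1 (by positivity) hi0
      · rw [hstep]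
        exact hIH.1
    · rw [List.replicate_succ, endv_cons, hstep]
      exact hIH.2

lemma replicate_sumDur (τ : ℝ) (w : E) (r : ℕ) :
    sumDur (List.replicate r (⟨none, τ, w⟩ : Seg ι E)) = (r : ℝ) * τ := by
  induction r with
  | zero => simp
  | succ r ih =>
    rw [List.replicate_succ, sumDur_cons, ih]
    push_cast
    ring

lemma replicate_tags (τ : ℝ) (w : E) (r : ℕ) :
    tags (List.replicate r (⟨none, τ, w⟩ : Seg ι E)) = [] := by
  induction r with
  | zero => simp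
  | succ r ih =>
    rw [List.replicate_succ, tags_cons, ih]
    simp

lemma tv_const (W W' : E) (Z : List (Seg ι E)) (hZ : ∀ z ∈ Z, z.w = W') :
    tv W Z = sumDur Z * ‖W' - W‖ := by
  induction Z with
  | nil => simp
  | cons z Z ih =>
    rw [tv_cons, sumDur_cons, ih (fun y hy => hZ y (List.mem_cons_of_mem _ hy)),
      hZ z List.mem_cons_self]
    ring

/-- Cutting one segment. -/
lemma split_seg (u : ι → E) (s : Seg ι E) (h : ℝ) (hh : 0 < h) (hs : h ≤ s.dur) (x : E) (A : ℝ)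
    (hB : Bdd u A x [s]) :
    ∃ Z : List (Seg ι E), Bdd u A x Z ∧ endv u x Z = x + eff u s ∧ sumDur Z = s.dur ∧
      tags Z = tags [s] ∧
      ∀ z ∈ Z, h ≤ z.dur ∧ z.dur < 2 * h ∧ z.w = s.w ∧ (∀ j, z.tag = some j → s.tag = some j) := by
  have hd : 0 < s.dur := lt_of_lt_of_le hh hs
  set r := ⌊s.dur / h⌋₊ with hr
  have hq : 1 ≤ s.dur / h := (one_le_div hh).mpr hs
  have hr1 : 1 ≤ r := Nat.le_floor (by simpa using hq)
  have hr2 : (r : ℝ) ≤ s.dur / h := Nat.floor_le (by positivity)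
  have hr3 : s.dur / h < r + 1 := Nat.lt_floor_add_one _
  have hrpos : (0 : ℝ) < r := by exact_mod_cast hr1
  have hr1' : (1 : ℝ) ≤ r := by exact_mod_cast hr1
  set τ := s.dur / r with hτ
  have hτ0 : 0 < τ := by positivity
  have hτh : h ≤ τ := by
    simp only [hτ]
    rw [le_div_iff₀ hrpos]
    rw [le_div_iff₀ hh] at hr2
    linarith
  have hτ2 : τ < 2 * h := by
    simp only [hτ]
    rw [div_lt_iff₀ hrpos]
    rw [div_lt_iff₀ hh] at hr3
    nlinarith
  have hrτ : (r : ℝ) * τ = s.dur := by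
    simp only [hτ]
    field_simp
  obtain ⟨h1, h2, -⟩ := hB
  set x0 := x + jv u s with hx0
  have h2' : ‖x0 - ((r : ℝ) * τ) • s.w‖ ^ 2 ≤ A := by
    rw [hrτ]
    have : x0 - s.dur • s.w = x + eff u s := by
      simp only [hx0, eff]
      abel
    rw [this]
    exact h2
  obtain ⟨k, hk⟩ : ∃ k, r = k + 1 := ⟨r - 1, by omega⟩
  have hrep := replicate_bdd (ι := ι) u x0 s.w τ A hτ0.le r h1 h2' k 1 (by omega)
  simp only [Nat.cast_one, one_mul] at hrep
  have hrk : (r : ℝ) = k + 1 := by rw [hk]; push_cast; ring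
  have hstep : x + eff u (⟨s.tag, τ, s.w⟩ : Seg ι E) = x0 - τ • s.w := by
    simp only [eff, jv_eq, hx0]
    abel
  refine ⟨⟨s.tag, τ, s.w⟩ :: List.replicate k ⟨none, τ, s.w⟩, ?_, ?_, ?_, ?_, ?_⟩
  · refine ⟨?_, ?_, ?_⟩
    · simpa [jv_eq, hx0] using h1
    · rw [hstep]
      exact interp_bdd h1 h2' hτ0.le (by nlinarith)
    · rw [hstep]
      exact hrep.1
  · rw [endv_cons, hstep, hrep.2, hrτ]
    simp only [hx0, eff]
    abel
  · rw [sumDur_cons, replicate_sumDur]
    simp only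
    rw [← hrτ, hrk]
    ring
  · rw [tags_cons, replicate_tags, tags_cons]
    simp
  · intro z hz
    rcases List.mem_cons.mp hz with rfl | hz
    · exact ⟨hτh, hτ2, rfl, fun j hj => hj⟩
    · have := List.eq_of_mem_replicate hz
      subst this
      refine ⟨hτh, hτ2, rfl, ?_⟩
      intro j hj
      simp at hj

/-- Cutting all segments. -/
lemma refine_list (u : ι → E) (h : ℝ) (hh : 0 < h) (A : ℝ) (L : List (Seg ι E))
    (hL : ∀ s ∈ L, h ≤ s.dur) (W : E) :
    ∀ x : E, Bdd u A x L →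
      ∃ L' : List (Seg ι E), Bdd u A x L' ∧ endv u x L' = endv u x L ∧ sumDur L' = sumDur L ∧
        tags L' = tags L ∧ tv W L' = tv W L ∧
        ∀ z ∈ L', h ≤ z.dur ∧ z.dur < 2 * h ∧ (∃ s ∈ L, z.w = s.w) ∧
          (∀ j, z.tag = some j → j ∈ tags L) := by
  induction L with
  | nil =>
    intro x _
    exact ⟨[], trivial, rfl, rfl, rfl, rfl, by simp⟩
  | cons s L ih =>
    intro x hB
    have hB1 : Bdd u A x [s] := ⟨hB.1, hB.2.1, trivial⟩
    obtain ⟨Z, hZ1, hZ2, hZ3, hZ4, hZ5⟩ := split_seg u s h hh (hL s List.mem_cons_self) x A hB1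
    obtain ⟨L', h1, h2, h3, h4, h5, h6⟩ := ih (fun y hy => hL y (List.mem_cons_of_mem _ hy))
      (x + eff u s) hB.2.2
    refine ⟨Z ++ L', ?_, ?_, ?_, ?_, ?_, ?_⟩
    · rw [Bdd_append]
      refine ⟨hZ1, ?_⟩
      rw [hZ2]
      exact h1
    · rw [endv_append, hZ2, h2, endv_cons]
    · rw [sumDur_append, hZ3, h3, sumDur_cons]
    · rw [tags_append, hZ4, h4, tags_cons (s := s) (L := L)]
      simp only [tags_cons, tags_nil, List.append_nil]
    · rw [tv_append, h5, tv_cons, tv_const W s.w Z (fun z hz => (hZ5 z hz).2.2.1), hZ3]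
    · intro z hz
      rcases List.mem_append.mp hz with hz | hz
      · obtain ⟨e1, e2, e3, e4⟩ := hZ5 z hz
        refine ⟨e1, e2, ⟨s, List.mem_cons_self, e3⟩, ?_⟩
        intro j hj
        have := e4 j hj
        rw [tags_cons, this]
        simp
      · obtain ⟨e1, e2, ⟨s', hs', e3⟩, e4⟩ := h6 z hz
        refine ⟨e1, e2, ⟨s', List.mem_cons_of_mem _ hs', e3⟩, ?_⟩
        intro j hj
        rw [tags_cons]
        exact List.mem_append_right _ (e4 j hj)

end

end Vale.Agent.helper7.St
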