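import Vale.Agent.helper7.St.Order

/-!
Paths made of jumps and runs; the rounding lemma.
-/

open Finset

set_option linter.unusedSectionVars false

namespace Vale.Agent.helper7.St

noncomputable section

variable {E : Type*} [NormedAddCommGroup E] [InnerProductSpace ℝ E] {ι : Type*}

/-- A segment: an optional jump, then a run of given duration against the drift `w`. -/
structure Seg (ι E : Type*) where
  tag : Option ι
  dur : ℝ
  w : E

/-- The jump vector of a segment. -/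
def jv (u : ι → E) (s : Seg ι E) : E :=
  match s.tag with
  | some j => u j
  | none => 0

/-- The net displacement of a segment. -/
def eff (u : ι → E) (s : Seg ι E) : E := jv u s - s.dur • s.w

/-- All visited points have squared norm at most `A`. -/
def Bdd (u : ι → E) (A : ℝ) : E → List (Seg ι E) → Prop
  | _, [] => True
  | x, s :: L => ‖x + jv u s‖ ^ 2 ≤ A ∧ ‖x + eff u s‖ ^ 2 ≤ A ∧ Bdd u A (x + eff u s) L

/-- End point of a path. -/
def endv (u : ι → E) (x : E) (L : List (Seg ι E)) : E := x + (L.map (eff u)).sum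

/-- Total duration. -/
def sumDur (L : List (Seg ι E)) : ℝ := (L.map Seg.dur).sum

/-- The jumps of a path. -/
def tags (L : List (Seg ι E)) : List ι := L.filterMap Seg.tag

/-- Weighted deviation of the drift from `W`. -/
def tv (W : E) (L : List (Seg ι E)) : ℝ := (L.map (fun s => s.dur * ‖s.w - W‖)).sum

@[simp] lemma endv_nil (u : ι → E) (x : E) : endv u x [] = x := by simp [endv]

@[simp] lemma endv_cons (u : ι → E) (x : E) (s : Seg ι E) (L : List (Seg ι E)) :
    endv u x (s :: L) = endv u (x + eff u s) L := by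
  simp [endv, add_assoc]

lemma endv_append (u : ι → E) (x : E) (L1 L2 : List (Seg ι E)) :
    endv u x (L1 ++ L2) = endv u (endv u x L1) L2 := by
  simp [endv, add_assoc]

lemma Bdd_append (u : ι → E) (A : ℝ) (L1 L2 : List (Seg ι E)) :
    ∀ x : E, Bdd u A x (L1 ++ L2) ↔ Bdd u A x L1 ∧ Bdd u A (endv u x L1) L2 := by
  induction L1 with
  | nil => intro x; simp [Bdd]
  | cons s L ih =>
    intro x
    simp only [List.cons_append, Bdd, endv_cons, ih, and_assoc]

lemma Bdd_mono (u : ι → E) {A A' : ℝ} (h : A ≤ A') (L : List (Seg ι E)) :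
    ∀ x : E, Bdd u A x L → Bdd u A' x L := by
  induction L with
  | nil => intro x _; trivial
  | cons s L ih =>
    intro x hx
    exact ⟨hx.1.trans h, hx.2.1.trans h, ih _ hx.2.2⟩

@[simp] lemma sumDur_nil : sumDur ([] : List (Seg ι E)) = 0 := rfl
@[simp] lemma sumDur_cons (s : Seg ι E) (L : List (Seg ι E)) :
    sumDur (s :: L) = s.dur + sumDur L := by simp [sumDur]
lemma sumDur_append (L1 L2 : List (Seg ι E)) : sumDur (L1 ++ L2) = sumDur L1 + sumDur L2 := by
  simp [sumDur]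

@[simp] lemma tags_nil : tags ([] : List (Seg ι E)) = [] := rfl
lemma tags_cons (s : Seg ι E) (L : List (Seg ι E)) :
    tags (s :: L) = s.tag.toList ++ tags L := by
  cases h : s.tag <;> simp [tags, h]
lemma tags_append (L1 L2 : List (Seg ι E)) : tags (L1 ++ L2) = tags L1 ++ tags L2 := by
  simp [tags, List.filterMap_append]

@[simp] lemma tv_nil (W : E) : tv W ([] : List (Seg ι E)) = 0 := rfl
@[simp] lemma tv_cons (W : E) (s : Seg ι E) (L : List (Seg ι E)) :
    tv W (s :: L) = s.dur * ‖s.w - W‖ + tv W L := by simp [tv]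
lemma tv_append (W : E) (L1 L2 : List (Seg ι E)) : tv W (L1 ++ L2) = tv W L1 + tv W L2 := by
  simp [tv]

/-- Squared norm is convex. -/
lemma norm_sq_convex (x y : E) {θ : ℝ} (h0 : 0 ≤ θ) (h1 : θ ≤ 1) :
    ‖(1 - θ) • x + θ • y‖ ^ 2 ≤ (1 - θ) * ‖x‖ ^ 2 + θ * ‖y‖ ^ 2 := by
  have h := norm_add_sq_real ((1 - θ) • x) (θ • y)
  rw [h, norm_smul, norm_smul, inner_smul_left, inner_smul_right]
  have hin : inner ℝ x y ≤ ‖x‖ * ‖y‖ := real_inner_le_norm x y
  simp only [Real.norm_eq_abs, abs_of_nonneg h0, abs_of_nonneg (sub_nonneg.mpr h1)]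
  simp only [conj_trivial]
  have h2 : 0 ≤ θ * (1 - θ) := mul_nonneg h0 (sub_nonneg.mpr h1)
  nlinarith [mul_le_mul_of_nonneg_left hin h2, sq_nonneg (‖x‖ - ‖y‖)]

/-! ### Rounding -/

/-- One rounding step with an expected increase of at most `3/4`. -/
lemma round_step (p z u : E) (hu : ‖u‖ ≤ 1) {b : ℝ} (hb : 0 ≤ b) :
    ∃ m : ℕ, b - 1 < m ∧ (m : ℝ) ≤ b + 1 ∧
      2 * inner ℝ p (z + ((m : ℝ) - b) • u) + 3 * ‖z + ((m : ℝ) - b) • u‖ ^ 2 ≤
        2 * inner ℝ p z + 3 * ‖z‖ ^ 2 + 3 / 4 := by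
  set n := ⌊b⌋₊ with hn
  have hn1 : (n : ℝ) ≤ b := Nat.floor_le hb
  have hn2 : b < n + 1 := Nat.lt_floor_add_one b
  set f := b - n with hf
  have hf0 : 0 ≤ f := sub_nonneg.mpr hn1
  have hf1 : f < 1 := by simp only [hf]; linarith
  set U := ‖u‖ ^ 2 with hU
  have hU0 : 0 ≤ U := by positivity
  have hU1 : U ≤ 1 := by
    simp only [hU]
    have := norm_nonneg u
    nlinarith
  set c := 2 * inner ℝ p u + 6 * inner ℝ z u with hc
  have key : ∀ y : ℝ, 2 * inner ℝ p (z + y • u) + 3 * ‖z + y • u‖ ^ 2 =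
      2 * inner ℝ p z + 3 * ‖z‖ ^ 2 + y * c + 3 * y ^ 2 * U := by
    intro y
    rw [norm_add_sq_real, inner_add_right, inner_smul_right, inner_smul_right, norm_smul,
      mul_pow, Real.norm_eq_abs, sq_abs]
    simp only [hc, hU]
    ring
  by_cases hcase : (-f) * c + 3 * (-f) ^ 2 * U ≤ 3 / 4
  · refine ⟨n, by simp only [hf] at *; linarith, by linarith, ?_⟩
    have : (n : ℝ) - b = -f := by simp only [hf]; ring
    rw [this, key]
    linarith
  · push Not at hcase
    refine ⟨n + 1, by push_cast; linarith, by push_cast; linarith, ?_⟩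
    have h1f : ((n + 1 : ℕ) : ℝ) - b = 1 - f := by
      push_cast
      simp only [hf]
      ring
    rw [h1f, key]
    have hh : (1 - f) * ((-f) * c + 3 * (-f) ^ 2 * U) + f * ((1 - f) * c + 3 * (1 - f) ^ 2 * U) =
        3 * f * (1 - f) * U := by ring
    have hf2 : 3 * f * (1 - f) * U ≤ 3 / 4 := by
      have h3 : f * (1 - f) ≤ 1 / 4 := by nlinarith [sq_nonneg (f - 1 / 2)]
      have h4 : 0 ≤ f * (1 - f) := mul_nonneg hf0 (by linarith)
      nlinarith
    have h1 : (1 - f) * (3 / 4) ≤ (1 - f) * ((-f) * c + 3 * (-f) ^ 2 * U) :=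
      mul_le_mul_of_nonneg_left hcase.le (by linarith)
    by_contra hcon
    push Not at hcon
    have h2 : 3 / 4 < (1 - f) * c + 3 * (1 - f) ^ 2 * U := by linarith
    rcases eq_or_lt_of_le hf0 with h0 | h0
    · -- `f = 0`, so the first branch is `0 ≤ 3/4`
      rw [← h0] at hcase
      norm_num at hcase
    · have h3 : f * (3 / 4) < f * ((1 - f) * c + 3 * (1 - f) ^ 2 * U) :=
        mul_lt_mul_of_pos_left h2 h0
      nlinarith

/-- The signed rounding error of counts `m` at time `t` for the types in `C`. -/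
def qv (C : Finset ι) (u : ι → E) (a : ι → ℝ) (m : ι → ℕ) (t : ℝ) : E :=
  ∑ j ∈ C, ((m j : ℝ) - a j * t) • u j

/-- The rounding lemma. -/
lemma round_exists [DecidableEq ι] (C : Finset ι) (u : ι → E) (hu : ∀ j ∈ C, ‖u j‖ ≤ 1)
    (b : ι → ℝ) (hb : ∀ j ∈ C, 0 ≤ b j) (p : E) :
    ∀ z : E, ∃ m : ι → ℕ, (∀ j ∈ C, b j - 1 < m j ∧ (m j : ℝ) ≤ b j + 1) ∧
      2 * inner ℝ p (z + ∑ j ∈ C, ((m j : ℝ) - b j) • u j) +
        3 * ‖z + ∑ j ∈ C, ((m j : ℝ) - b j) • u j‖ ^ 2 ≤
        2 * inner ℝ p z + 3 * ‖z‖ ^ 2 + 3 / 4 * (C.card : ℝ) := by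
  induction C using Finset.induction_on with
  | empty =>
    intro z
    exact ⟨fun _ => 0, by simp, by simp⟩
  | insert j C hj ih =>
    intro z
    obtain ⟨m0, hm1, hm2, hm3⟩ := round_step p z (u j) (hu j (mem_insert_self _ _))
      (hb j (mem_insert_self _ _))
    obtain ⟨m, hm, hmz⟩ := ih (fun i hi => hu i (mem_insert_of_mem hi))
      (fun i hi => hb i (mem_insert_of_mem hi)) (z + ((m0 : ℝ) - b j) • u j)
    refine ⟨Function.update m j m0, ?_, ?_⟩
    · intro i hi
      rcases mem_insert.mp hi with rfl | hi'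
      · simp only [Function.update_self]
        exact ⟨hm1, hm2⟩
      · have hne : i ≠ j := fun h => hj (h ▸ hi')
        simp only [Function.update_of_ne hne]
        exact hm i hi'
    · have hsum : ∑ i ∈ insert j C, (((Function.update m j m0 i : ℕ) : ℝ) - b i) • u i =
          ((m0 : ℝ) - b j) • u j + ∑ i ∈ C, ((m i : ℝ) - b i) • u i := by
        rw [sum_insert hj]
        simp only [Function.update_self]
        congr 1
        refine sum_congr rfl (fun i hi => ?_)
        have hne : i ≠ j := fun h => hj (h ▸ hi)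
        simp only [Function.update_of_ne hne]
      rw [hsum, ← add_assoc, card_insert_of_notMem hj]
      push_cast
      linarith

/-- Rounding the counts at time `t` relative to the point `p`. -/
lemma round_qv [DecidableEq ι] (C : Finset ι) (u : ι → E) (hu : ∀ j ∈ C, ‖u j‖ ≤ 1)
    (a : ι → ℝ) (t : ℝ) (hb : ∀ j ∈ C, 0 ≤ a j * t) (p : E) :
    ∃ m : ι → ℕ, (∀ j ∈ C, a j * t - 1 < m j ∧ (m j : ℝ) ≤ a j * t + 1) ∧
      2 * inner ℝ p (qv C u a m t) + 3 * ‖qv C u a m t‖ ^ 2 ≤ 3 / 4 * (C.card : ℝ) := by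
  obtain ⟨m, hm, h⟩ := round_exists C u hu (fun j => a j * t) hb p 0
  refine ⟨m, hm, ?_⟩
  simpa [qv] using h

/-- From the rounding inequality to the inequality at a nearby point. -/
lemma good_of_psi {p p' q : E} {κ : ℝ} (h : 2 * inner ℝ p q + 3 * ‖q‖ ^ 2 ≤ κ)
    (hpp : ‖p' - p‖ ≤ 1) : ‖p' + q‖ ^ 2 + ‖q‖ ^ 2 ≤ ‖p'‖ ^ 2 + κ + 1 := by
  have h1 : inner ℝ p' q = inner ℝ p q + inner ℝ (p' - p) q := by
    rw [inner_sub_left]; ring
  have h2 : inner ℝ (p' - p) q ≤ ‖p' - p‖ * ‖q‖ := real_inner_le_norm _ _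
  have h3 : ‖p' - p‖ * ‖q‖ ≤ ‖q‖ := by
    have := norm_nonneg q
    nlinarith
  rw [norm_add_sq_real, h1]
  nlinarith [sq_nonneg (‖q‖ - 1)]

lemma qv_step [DecidableEq ι] (C : Finset ι) (u : ι → E) (a : ι → ℝ) (m n m' : ι → ℕ) (t τ : ℝ)
    (hm : ∀ j ∈ C, m' j = m j + n j) :
    qv C u a m' (t + τ) = qv C u a m t + ∑ j ∈ C, (n j : ℝ) • u j -
      τ • ∑ j ∈ C, a j • u j := by
  simp only [qv, smul_sum, ← sum_add_distrib, ← sum_sub_distrib]
  refine sum_congr rfl (fun j hj => ?_)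
  rw [hm j hj, smul_smul, ← add_smul, ← sub_smul]
  congr 1
  push_cast
  ring

end

end Vale.Agent.helper7.St
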