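import Vale.Agent.helper7.St.Assemble

/-!
The induction on the length of the list.
-/

open Finset

set_option linter.unusedSectionVars false

namespace Vale.Agent.helper7.St

noncomputable section

lemma prefix_flatten {α : Type*} (X' : List (List α)) :
    ∀ pre : List α, pre <+: X'.flatten → ∃ (bs : List (List α)) (p : List α), bs <+: X' ∧
      pre = bs.flatten ++ p ∧ (p = [] ∨ ∃ B ∈ X', p <+: B) := by
  induction X' with
  | nil =>
    intro pre hpre
    have : pre = [] := by simpa using hpre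
    exact ⟨[], [], List.nil_prefix, by simp [this], Or.inl rfl⟩
  | cons B X' ih =>
    intro pre hpre
    obtain ⟨t, ht⟩ := hpre
    rw [List.flatten_cons] at ht
    rcases List.append_eq_append_iff.mp ht with ⟨a', h1, _⟩ | ⟨c', h1, h2⟩
    · refine ⟨[], pre, List.nil_prefix, by simp, Or.inr ⟨B, List.mem_cons_self, a', h1.symm⟩⟩
    · obtain ⟨bs, p, e1, e2, e3⟩ := ih c' ⟨t, h2.symm⟩
      refine ⟨B :: bs, p, ?_, ?_, ?_⟩
      · exact (List.cons_prefix_cons).mpr ⟨rfl, e1⟩
      · simp [h1, e2]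
      · rcases e3 with e3 | ⟨B', hB', e4⟩
        · exact Or.inl e3
        · exact Or.inr ⟨B', List.mem_cons_of_mem _ hB', e4⟩

lemma map_flatten_sum {d : ℕ} {α : Type*} (f : α → Sp d) (Ch : List (List α)) :
    (Ch.flatten.map f).sum = (Ch.map (fun B => (B.map f).sum)).sum := by
  induction Ch with
  | nil => simp
  | cons B Ch ih =>
    simp only [List.flatten_cons, List.map_append, List.sum_append, List.map_cons, List.sum_cons, ih]

/-- Ordering the children. -/
theorem flatten_order {d : ℕ} {α : Type*} (f : α → Sp d) (Ch : List (List α)) (I Nt : ℝ)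
    (hCh : ∀ B ∈ Ch, ChildOK f I B) (hI : 0 ≤ I) (hN : (Ch.length : ℝ) ≤ Nt) (hN1 : 1 ≤ Nt)
    (hsum : (Ch.flatten.map f).sum = 0) :
    ∃ X' : List α, X'.Perm Ch.flatten ∧ ∀ pre : List α, pre <+: X' →
      ‖(pre.map f).sum‖ ≤ Real.sqrt (50 * Real.log Nt + 18 * (d : ℝ)) + I := by
  classical
  let F : List α → Sp d := fun B => (B.map f).sum
  have hfin : Module.finrank ℝ (⊤ : Submodule ℝ (Sp d)) ≤ d := by
    rw [finrank_top]
    simp
  obtain ⟨X1, hX1, hb⟩ := order_list (⊤ : Submodule ℝ (Sp d)) d hfin Ch F (fun _ _ => trivial)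
    (fun B hB => (hCh B hB).1) (by rw [← hsum, map_flatten_sum])
  refine ⟨X1.flatten, hX1.flatten, ?_⟩
  intro pre hpre
  obtain ⟨bs, p, h1, h2, h3⟩ := prefix_flatten X1 pre hpre
  rw [h2, List.map_append, List.sum_append]
  refine (norm_add_le _ _).trans (add_le_add ?_ ?_)
  · rw [map_flatten_sum]
    refine Real.le_sqrt_of_sq_le ((hb bs h1).trans ?_)
    have hlog : Real.log (Ch.length : ℝ) ≤ Real.log Nt := by
      rcases Nat.eq_zero_or_pos Ch.length with h0 | h0
      · rw [h0]
        simpa using Real.log_nonneg hN1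
      · exact Real.log_le_log (by exact_mod_cast h0) hN
    linarith
  · rcases h3 with rfl | ⟨B, hB, hpB⟩
    · simpa using hI
    · exact (hCh B (hX1.subset hB)).2 p hpB

lemma norm_list_sum_le {E β : Type*} [NormedAddCommGroup E] (F : β → E) (Y : List β) (ρ : ℝ)
    (h : ∀ y ∈ Y, ‖F y‖ ≤ ρ) : ‖(Y.map F).sum‖ ≤ (Y.length : ℝ) * ρ := by
  induction Y with
  | nil => simp
  | cons y Y ih =>
    simp only [List.map_cons, List.sum_cons, List.length_cons]
    have h1 := h y List.mem_cons_self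
    have h2 := ih (fun z hz => h z (List.mem_cons_of_mem _ hz))
    have h3 := norm_add_le (F y) (Y.map F).sum
    push_cast
    linarith

/-- The grid size for the cells. -/
def kap0 (d : ℕ) (R : ℝ) : ℕ := ⌈1 / ((1 / (8 * ((d : ℝ) + 1) * R)) / ((d : ℝ) + 1))⌉₊

/-- The number of cells. -/
def Ncell (d : ℕ) (R : ℝ) : ℕ := (2 * kap0 d R + 1) ^ d

/-- The number of children. -/
def NT (d : ℕ) (R : ℝ) : ℝ :=
  (Ncell d R : ℝ) * (2 * (nlab d (Af d) (Vf d) : ℝ)) +
    (Ncell d R : ℝ) * ((Ncell d R : ℝ) * Lbd (d + 1))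

lemma NT_ge_one (d : ℕ) (R : ℝ) : 1 ≤ NT d R := by
  have h0 : 1 ≤ d + 1 := by omega
  have h1 : (1 : ℝ) ≤ Ncell d R := by
    have : 1 ≤ Ncell d R := Nat.one_le_pow _ _ (by omega)
    exact_mod_cast this
  have h2 : (1 : ℝ) ≤ nlab d (Af d) (Vf d) := by
    have : 1 ≤ nlab d (Af d) (Vf d) := by
      simp only [nlab]
      exact Nat.mul_pos (Nat.pow_pos (by omega)) (by omega)
    exact_mod_cast this
  have h3 := Lbd_nonneg (d + 1) h0
  have h4 : 0 ≤ (Ncell d R : ℝ) * ((Ncell d R : ℝ) * Lbd (d + 1)) := by positivity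
  simp only [NT]
  nlinarith

/-- The step for lists containing a vector of norm one. -/
theorem core_step {d : ℕ} {α : Type*} (R : ℝ) (hR : 1 ≤ R)
    (num : Real.sqrt (50 * Real.log (NT d R) + 18 * (d : ℝ)) + (2 * Real.sqrt (Af d) + 1) ≤ R)
    (X : List α)
    (IH : ∀ Y : List α, Y.length < X.length → ∀ f' : α → Sp d, (∀ x ∈ Y, ‖f' x‖ ≤ 1) →
      (Y.map f').sum = 0 → ∃ Y' : List α, Y'.Perm Y ∧ ∀ pre : List α, pre <+: Y' →
        ‖(pre.map f').sum‖ ≤ R)
    (g : α → Sp d) (hg : ∀ x ∈ X, ‖g x‖ ≤ 1) (hsum : (X.map g).sum = 0) (xs : α) (hxs : xs ∈ X)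
    (hnorm : ‖g xs‖ = 1) :
    ∃ X' : List α, X'.Perm X ∧ ∀ pre : List α, pre <+: X' → ‖(pre.map g).sum‖ ≤ R := by
  classical
  have hD : (0 : ℝ) < (d : ℝ) + 1 := by positivity
  have hD1 : (1 : ℝ) ≤ (d : ℝ) + 1 := by
    have : (0 : ℝ) ≤ d := Nat.cast_nonneg d
    linarith
  have hR0 : 0 < R := by linarith
  set ρ : ℝ := 1 / (8 * ((d : ℝ) + 1) * R) with hρ
  have hρ0 : 0 < ρ := by positivity
  have hρ1 : ρ < 1 := by
    simp only [hρ]
    rw [div_lt_one (by positivity)]
    nlinarith
  set s0 : ℝ := ρ / ((d : ℝ) + 1) with hs0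
  have hs00 : 0 < s0 := by positivity
  have hs0ρ : ((d : ℝ) + 1) * s0 = ρ := by
    simp only [hs0]
    field_simp
  let c : α → (Fin d → ℤ) := fun x => grid s0 (g x)
  set S := gridCells d (kap0 d R) with hS
  have hcS : ∀ x ∈ X, c x ∈ S := fun x hx => grid_mem hs00 (hg x hx)
  have hScard : (S.card : ℝ) = (Ncell d R : ℝ) := by
    simp only [hS, gridCells_card, Ncell]
  let Xc : (Fin d → ℤ) → List α := fun c0 => X.filter (fun x => c x = c0)
  let v : (Fin d → ℤ) → Sp d := fun c0 => (1 / ((Xc c0).length : ℝ)) • ((Xc c0).map g).sum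
  have hXcmem : ∀ c0, ∀ x ∈ Xc c0, x ∈ X ∧ c x = c0 := by
    intro c0 x hx
    obtain ⟨h1, h2⟩ := List.mem_filter.mp hx
    exact ⟨h1, by simpa using h2⟩
  have hnv : ∀ c0, ((Xc c0).length : ℝ) • v c0 = ((Xc c0).map g).sum := by
    intro c0
    rcases Nat.eq_zero_or_pos (Xc c0).length with h0 | h0
    · have hnil : Xc c0 = [] := List.eq_nil_of_length_eq_zero h0
      rw [hnil]
      simp
    · have hn : ((Xc c0).length : ℝ) ≠ 0 := by
        have : (0 : ℝ) < (Xc c0).length := by exact_mod_cast h0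
        exact this.ne'
      simp only [v]
      rw [smul_smul, mul_one_div_cancel hn, one_smul]
  have hvclose : ∀ c0, ∀ x ∈ Xc c0, ‖g x - v c0‖ ≤ ρ := by
    intro c0 x hx
    have hlen : 0 < (Xc c0).length := List.length_pos_of_mem hx
    have hn : (0 : ℝ) < (Xc c0).length := by exact_mod_cast hlen
    have e1 : ((Xc c0).length : ℝ) • (g x - v c0) = ((Xc c0).map (fun y => g x - g y)).sum := by
      rw [smul_sub, hnv]
      have := map_sub_const_sum (E := Sp d) (fun _ => g x) (0 : Sp d) (Xc c0)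
      have e2 : ∀ Y : List α, (Y.map (fun y => g x - g y)).sum =
          (Y.length : ℝ) • g x - (Y.map g).sum := by
        intro Y
        induction Y with
        | nil => simp
        | cons y Y ih =>
          simp only [List.map_cons, List.sum_cons, List.length_cons, ih]
          push_cast
          module
      rw [e2]
    have e3 : ‖((Xc c0).map (fun y => g x - g y)).sum‖ ≤ ((Xc c0).length : ℝ) * ρ := by
      refine norm_list_sum_le _ _ _ (fun y hy => ?_)
      have h1 := (hXcmem c0 x hx).2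
      have h2 := (hXcmem c0 y hy).2
      have h3 : grid s0 (g x) = grid s0 (g y) := h1.trans h2.symm
      have h4 := grid_close hs00 h3
      rwa [hs0ρ] at h4
    rw [← e1, norm_smul, Real.norm_eq_abs, abs_of_pos hn] at e3
    exact le_of_mul_le_mul_left e3 hn
  have hvnorm : ∀ c0, ‖v c0‖ ≤ 1 := by
    intro c0
    simp only [v]
    rw [norm_smul, Real.norm_eq_abs, abs_of_nonneg (by positivity)]
    have h1 : ‖((Xc c0).map g).sum‖ ≤ ((Xc c0).length : ℝ) :=
      norm_map_sum_le g (Xc c0) (fun j hj => hg j (hXcmem c0 j hj).1)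
    rcases Nat.eq_zero_or_pos (Xc c0).length with h0 | h0
    · simp [h0]
    · have hn : (0 : ℝ) < (Xc c0).length := by exact_mod_cast h0
      rw [one_div, inv_mul_le_iff₀ hn]
      linarith
  have hshort : ∀ c0, (Xc c0).length < X.length := by
    intro c0
    refine List.length_filter_lt_length_iff_exists.mpr ?_
    by_contra hall
    push Not at hall
    have hXc : Xc c0 = X := List.filter_eq_self.mpr hall
    have hv0 : v c0 = 0 := by
      simp only [v]
      rw [hXc, hsum, smul_zero]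
    have h1 := hvclose c0 xs (by rw [hXc]; exact hxs)
    rw [hv0, sub_zero, hnorm] at h1
    linarith
  let f' : (Fin d → ℤ) → α → Sp d := fun c0 x => (1 / ρ) • (g x - v c0)
  have hf'map : ∀ c0, ∀ Y : List α, (Y.map (f' c0)).sum =
      (1 / ρ) • ((Y.map g).sum - (Y.length : ℝ) • v c0) := by
    intro c0 Y
    rw [← map_sub_const_sum]
    induction Y with
    | nil => simp
    | cons y Y ih =>
      simp only [List.map_cons, List.sum_cons, ih, smul_add, f']
  have hexO : ∀ c0, ∃ Y' : List α, Y'.Perm (Xc c0) ∧ ∀ pre : List α, pre <+: Y' →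
      ‖(pre.map (f' c0)).sum‖ ≤ R := by
    intro c0
    refine IH (Xc c0) (hshort c0) (f' c0) ?_ ?_
    · intro x hx
      simp only [f']
      rw [norm_smul, Real.norm_eq_abs, abs_of_pos (by positivity), one_div,
        inv_mul_le_iff₀ hρ0]
      simpa using hvclose c0 x hx
    · rw [hf'map, hnv, sub_self, smul_zero]
  choose O hO1 hO2 using hexO
  set ξ : ℝ := 2 * ρ * R with hξdef
  have hξ0 : 0 ≤ ξ := by positivity
  have hξd : ((d : ℝ) + 1) * ξ ≤ 1 / 4 := by
    have : ((d : ℝ) + 1) * ξ = 1 / 4 := by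
      simp only [hξdef, hρ]
      field_simp
      norm_num
    exact this.le
  have hξ : ∀ c0 ∈ S, ∀ Y : List α, Y <:+: O c0 →
      ‖(Y.map g).sum - (Y.length : ℝ) • v c0‖ ≤ ξ := by
    intro c0 _ Y hY
    obtain ⟨A, B, hAB⟩ := hY
    have h1 : (A ++ Y) <+: O c0 := ⟨B, hAB⟩
    have h2 : A <+: O c0 := (List.prefix_append A Y).trans h1
    have h3 := hO2 c0 _ h1
    have h4 := hO2 c0 _ h2
    rw [List.map_append, List.sum_append] at h3
    have h5 : ‖(Y.map (f' c0)).sum‖ ≤ 2 * R := by
      have e := norm_sub_le ((A.map (f' c0)).sum + (Y.map (f' c0)).sum) (A.map (f' c0)).sum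
      rw [add_sub_cancel_left] at e
      linarith
    rw [hf'map, norm_smul, Real.norm_eq_abs, abs_of_pos (by positivity), one_div,
      inv_mul_le_iff₀ hρ0] at h5
    simp only [hξdef]
    linarith
  have hfO : ∀ c0 ∈ S, ∀ x ∈ O c0, ‖g x‖ ≤ 1 := by
    intro c0 _ x hx
    exact hg x (hXcmem c0 x ((hO1 c0).subset hx)).1
  have hlenO : ∀ c0, (O c0).length = (Xc c0).length := fun c0 => (hO1 c0).length_eq
  have hsumm : ∑ c0 ∈ S, ((O c0).length : ℝ) • v c0 = 0 := by
    have e := sum_by_tag c g S X hcS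
    rw [hsum] at e
    rw [e]
    refine Finset.sum_congr rfl (fun c0 _ => ?_)
    rw [hlenO, hnv]
  obtain ⟨Ch, e1, e2, e3⟩ := process g S v O ξ (fun c0 _ => hvnorm c0) hfO hξ hξd hξ0 S.card
    (fun c0 => ((O c0).length : ℝ)) O 0 (Finset.card_filter_le _ _)
    (fun _ _ => Nat.cast_nonneg _) hsumm (fun c0 _ => List.suffix_refl _)
    (fun c0 _ => ⟨le_rfl, by simp⟩) le_rfl
  have hCh : ((Ch.flatten : List α) : Multiset α) = (X : Multiset α) := by
    rw [e1]
    have e4 := coe_by_tag c id S X hcS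
    rw [List.map_id] at e4
    rw [e4]
    refine Finset.sum_congr rfl (fun c0 _ => ?_)
    rw [List.map_id]
    exact Multiset.coe_eq_coe.mpr (hO1 c0)
  have hperm : Ch.flatten.Perm X := Multiset.coe_eq_coe.mp hCh
  have hN : (Ch.length : ℝ) ≤ NT d R := by
    simp only [NT]
    rw [← hScard]
    simpa using e2
  have hI : 0 ≤ 2 * Real.sqrt (Af d) + 1 := by positivity
  obtain ⟨X', h1, h2⟩ := flatten_order g Ch _ (NT d R) e3 hI hN (NT_ge_one d R)
    (by rw [(hperm.map g).sum_eq, hsum])
  refine ⟨X', h1.trans hperm, fun pre hpre => (h2 pre hpre).trans num⟩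

/-- The main induction. -/
theorem steinitz_list {d : ℕ} {α : Type*} (R : ℝ) (hR : 1 ≤ R)
    (num : Real.sqrt (50 * Real.log (NT d R) + 18 * (d : ℝ)) + (2 * Real.sqrt (Af d) + 1) ≤ R) :
    ∀ (N : ℕ) (X : List α), X.length = N → ∀ f : α → Sp d, (∀ x ∈ X, ‖f x‖ ≤ 1) →
      (X.map f).sum = 0 → ∃ X' : List α, X'.Perm X ∧ ∀ pre : List α, pre <+: X' →
        ‖(pre.map f).sum‖ ≤ R := by
  classical
  intro N
  induction N using Nat.strong_induction_on with
  | _ N ih =>
    intro X hX f hf hsum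
    have hR0 : 0 ≤ R := by linarith
    by_cases hall : ∀ x ∈ X, f x = 0
    · refine ⟨X, List.Perm.refl _, fun pre hpre => ?_⟩
      have hmap : pre.map f = pre.map (fun _ => (0 : Sp d)) :=
        List.map_congr_left (fun x hx => hall x (hpre.subset hx))
      rw [hmap]
      simpa using hR0
    · push Not at hall
      obtain ⟨x0, hx0, hx0ne⟩ := hall
      obtain ⟨xs, hxs, hmax⟩ := X.toFinset.exists_max_image (fun x => ‖f x‖)
        ⟨x0, List.mem_toFinset.mpr hx0⟩
      have hxs' : xs ∈ X := List.mem_toFinset.mp hxs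
      set M := ‖f xs‖ with hM
      have hM0 : 0 < M := by
        have h1 : 0 < ‖f x0‖ := norm_pos_iff.mpr hx0ne
        have h2 := hmax x0 (List.mem_toFinset.mpr hx0)
        linarith
      have hM1 : M ≤ 1 := hf xs hxs'
      let g : α → Sp d := fun x => (1 / M) • f x
      have hgmap : ∀ Y : List α, (Y.map g).sum = (1 / M) • (Y.map f).sum := by
        intro Y
        induction Y with
        | nil => simp
        | cons y Y ih' =>
          simp only [List.map_cons, List.sum_cons, ih', smul_add, g]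
      have hg : ∀ x ∈ X, ‖g x‖ ≤ 1 := by
        intro x hx
        simp only [g]
        rw [norm_smul, Real.norm_eq_abs, abs_of_pos (by positivity), one_div,
          inv_mul_le_iff₀ hM0, mul_one]
        exact hmax x (List.mem_toFinset.mpr hx)
      have hgxs : ‖g xs‖ = 1 := by
        simp only [g]
        rw [norm_smul, Real.norm_eq_abs, abs_of_pos (by positivity), ← hM]
        field_simp
      obtain ⟨X', h1, h2⟩ := core_step R hR num X
        (fun Y hY f' hf' hs' => by
          rw [hX] at hY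
          exact ih Y.length hY Y rfl f' hf' hs')
        g hg (by rw [hgmap, hsum, smul_zero]) xs hxs' hgxs
      refine ⟨X', h1, fun pre hpre => ?_⟩
      have h3 := h2 pre hpre
      rw [hgmap, norm_smul, Real.norm_eq_abs, abs_of_pos (by positivity), one_div,
        inv_mul_le_iff₀ hM0] at h3
      have h4 : M * R ≤ 1 * R := mul_le_mul_of_nonneg_right hM1 hR0
      linarith

end

end Vale.Agent.helper7.St
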