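import Vale.Agent.helper7.St.Seg

/-!
One window: the jumps of the fast cluster in a short time span.
-/

open Finset

set_option linter.unusedSectionVars false

namespace Vale.Agent.helper7.St

noncomputable section

variable {E : Type*} [NormedAddCommGroup E] [InnerProductSpace ℝ E] {ι : Type*}

/-- The value estimate in a window. -/
lemma window_value {x0 x1 p0 p1 q0 q1 c D : E} {θ σ B ε ξ G : ℝ}
    (hθ0 : 0 ≤ θ) (hθ1 : θ ≤ 1) (hx0 : x0 = p0 + q0) (hx1 : x1 = p1 + q1)
    (h0 : ‖x0‖ ^ 2 + ‖q0‖ ^ 2 ≤ B) (h1 : ‖x1‖ ^ 2 + ‖q1‖ ^ 2 ≤ B) (hp : ‖p1 - p0‖ ≤ ε)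
    (hε : ε ≤ 1) (hc : inner ℝ p0 c ≤ 0)
    (hD : (σ - θ) * inner ℝ p0 D ≤ ξ) (hD2 : ‖(σ - θ) • D‖ ≤ 2) (hcG : ‖c‖ ^ 2 ≤ G)
    (hξ : ξ ≤ 1 / 2) :
    ‖(1 - θ) • x0 + θ • x1 + c + (σ - θ) • D‖ ^ 2 ≤ B + 26 + 6 * G := by
  set F := c + (σ - θ) • D with hF
  set y := (1 - θ) • x0 + θ • x1 with hy
  set qb := (1 - θ) • q0 + θ • q1 with hqb
  have hθ1' : 0 ≤ 1 - θ := sub_nonneg.mpr hθ1
  have hε0 : 0 ≤ ε := le_trans (norm_nonneg _) hp
  have hV : (1 - θ) • x0 + θ • x1 + c + (σ - θ) • D = y + F := by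
    simp only [hF, hy]; abel
  have hydec : y = p0 + θ • (p1 - p0) + qb := by
    simp only [hy, hqb, hx0, hx1]
    module
  have hyn : ‖y‖ ^ 2 ≤ (1 - θ) * ‖x0‖ ^ 2 + θ * ‖x1‖ ^ 2 := norm_sq_convex x0 x1 hθ0 hθ1
  have hqn : ‖qb‖ ^ 2 ≤ (1 - θ) * ‖q0‖ ^ 2 + θ * ‖q1‖ ^ 2 := norm_sq_convex q0 q1 hθ0 hθ1
  have hsumB : (1 - θ) * ‖x0‖ ^ 2 + θ * ‖x1‖ ^ 2 + ((1 - θ) * ‖q0‖ ^ 2 + θ * ‖q1‖ ^ 2) ≤ B := by
    have e1 := mul_le_mul_of_nonneg_left h0 hθ1'
    have e2 := mul_le_mul_of_nonneg_left h1 hθ0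
    nlinarith
  have hin : inner ℝ y F = inner ℝ p0 F + θ * inner ℝ (p1 - p0) F + inner ℝ qb F := by
    rw [hydec, inner_add_left, inner_add_left, inner_smul_left]
    simp
  have hi1 : inner ℝ p0 F ≤ ξ := by
    simp only [hF]
    rw [inner_add_right, inner_smul_right]
    linarith
  have hnF : 0 ≤ ‖F‖ := norm_nonneg _
  have hi2 : θ * inner ℝ (p1 - p0) F ≤ ε * ‖F‖ := by
    have h3 : inner ℝ (p1 - p0) F ≤ ‖p1 - p0‖ * ‖F‖ := real_inner_le_norm _ _
    have h4 : ‖p1 - p0‖ * ‖F‖ ≤ ε * ‖F‖ := mul_le_mul_of_nonneg_right hp hnF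
    have h5 : 0 ≤ ε * ‖F‖ := mul_nonneg hε0 hnF
    nlinarith [mul_le_mul_of_nonneg_left (h3.trans h4) hθ0]
  have hi3 : inner ℝ qb F ≤ ‖qb‖ * ‖F‖ := real_inner_le_norm _ _
  have hFc : ‖F‖ ≤ ‖c‖ + 2 := by
    simp only [hF]
    exact (norm_add_le _ _).trans (by linarith)
  have hF2 : ‖F‖ ^ 2 ≤ 2 * G + 8 := by
    have h6 : ‖F‖ ^ 2 ≤ (‖c‖ + 2) ^ 2 := by
      have := norm_nonneg c
      nlinarith
    nlinarith [sq_nonneg (‖c‖ - 2)]
  rw [hV, norm_add_sq_real, hin]
  nlinarith [sq_nonneg (‖qb‖ - ‖F‖), sq_nonneg (ε - ‖F‖)]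

/-- Break points of a window. -/
lemma exists_theta (N : ℕ) (hN : 1 ≤ N) (β : ℝ) (hβ0 : 0 < β) (hβ1 : (N : ℝ) * β + 2 * β ≤ 1)
    (t : ℝ) :
    ∃ θ : ℕ → ℝ, θ 0 = 0 ∧ θ (N + 1) = 1 ∧ (∀ i, i ≤ N → β ≤ θ (i + 1) - θ i) ∧
      ∀ s, s ≤ N → ∀ i, (i = s ∨ i = s + 1) → 0 ≤ θ i ∧ θ i ≤ 1 ∧
        ((s : ℝ) / N - θ i) * t ≤ β * |t| ∧ |(s : ℝ) / N - θ i| ≤ 1 / N + β := by
  have hNpos : (0 : ℝ) < N := by exact_mod_cast hN
  have hN1 : (1 : ℝ) ≤ N := by exact_mod_cast hN
  set g : ℝ := 1 / N with hg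
  have hgpos : 0 < g := by positivity
  have hgN : (N : ℝ) * g = 1 := by simp only [hg]; field_simp
  have hg1 : g ≤ 1 := by
    simp only [hg]
    rw [div_le_one hNpos]
    exact hN1
  have hβ2 : 2 * β ≤ 1 := by nlinarith
  have hβg : β ≤ (1 - 2 * β) * g := by
    have : (N : ℝ) * β * g ≤ (1 - 2 * β) * g := mul_le_mul_of_nonneg_right (by linarith) hgpos.le
    have h2 : (N : ℝ) * β * g = β := by
      calc (N : ℝ) * β * g = ((N : ℝ) * g) * β := by ring
        _ = β := by rw [hgN]; ring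
    linarith
  have hdiv : ∀ s : ℕ, (s : ℝ) / N = s * g := by
    intro s
    simp only [hg]
    ring
  -- a common definition with parameter `σ`
  let θσ : ℝ → ℕ → ℝ := fun σ i =>
    if i = 0 then 0 else if i ≤ N then β + (1 - 2 * β) * (((i : ℝ) - 1 + σ) * g) else 1
  have hθ0 : ∀ σ, θσ σ 0 = 0 := fun σ => by simp [θσ]
  have hθN : ∀ σ, θσ σ (N + 1) = 1 := fun σ => by simp [θσ]
  have hθi : ∀ σ (i : ℕ), 1 ≤ i → i ≤ N →
      θσ σ i = β + (1 - 2 * β) * (((i : ℝ) - 1 + σ) * g) := by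
    intro σ i h1 h2
    have : i ≠ 0 := by omega
    simp [θσ, this, h2]
  have hinc : ∀ σ : ℝ, 0 ≤ σ → σ ≤ 1 → ∀ i, i ≤ N → β ≤ θσ σ (i + 1) - θσ σ i := by
    intro σ h0 h1 i hi
    rcases Nat.eq_zero_or_pos i with rfl | hipos
    · rw [hθ0, hθi σ (0 + 1) (by omega) (by omega)]
      have e0 : (((0 + 1 : ℕ) : ℝ) - 1 + σ) = σ := by
        push_cast
        ring
      rw [e0]
      have : 0 ≤ (1 - 2 * β) * (σ * g) :=
        mul_nonneg (by linarith) (mul_nonneg h0 hgpos.le)
      linarith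
    · rcases Nat.lt_or_ge i N with hlt | hge
      · rw [hθi σ (i + 1) (by omega) (by omega), hθi σ i hipos (by omega)]
        push_cast
        have : β + (1 - 2 * β) * (((i : ℝ) + 1 - 1 + σ) * g) -
            (β + (1 - 2 * β) * (((i : ℝ) - 1 + σ) * g)) = (1 - 2 * β) * g := by ring
        rw [this]
        exact hβg
      · have : i = N := by omega
        subst this
        rw [hθN, hθi σ i hipos (by omega)]
        have e : β + (1 - 2 * β) * (((i : ℝ) - 1 + σ) * g) =
            β + (1 - 2 * β) * (((i : ℝ) * g) + (σ - 1) * g) := by ring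
        rw [e, hgN]
        have h3 : (1 - 2 * β) * ((σ - 1) * g) ≤ 0 := by
          have : (σ - 1) * g ≤ 0 := mul_nonpos_of_nonpos_of_nonneg (by linarith) hgpos.le
          exact mul_nonpos_of_nonneg_of_nonpos (by linarith) this
        nlinarith
  -- the range of values
  have hrange : ∀ σ : ℝ, 0 ≤ σ → σ ≤ 1 → ∀ i, i ≤ N + 1 → 0 ≤ θσ σ i ∧ θσ σ i ≤ 1 := by
    intro σ h0 h1 i hi
    rcases Nat.eq_zero_or_pos i with rfl | hipos
    · rw [hθ0]; norm_num
    · rcases Nat.lt_or_ge N i with hlt | hge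
      · have : i = N + 1 := by omega
        subst this
        rw [hθN]; norm_num
      · rw [hθi σ i hipos hge]
        have hi1 : (1 : ℝ) ≤ i := by exact_mod_cast hipos
        have hi2 : (i : ℝ) ≤ N := by exact_mod_cast hge
        have h3 : 0 ≤ ((i : ℝ) - 1 + σ) * g := mul_nonneg (by linarith) hgpos.le
        have h4 : ((i : ℝ) - 1 + σ) * g ≤ 1 := by
          have : ((i : ℝ) - 1 + σ) * g ≤ (N : ℝ) * g :=
            mul_le_mul_of_nonneg_right (by linarith) hgpos.le
          linarith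
        have h5 : 0 ≤ 1 - 2 * β := by linarith
        constructor
        · have := mul_nonneg h5 h3
          linarith
        · have := mul_le_mul_of_nonneg_left h4 h5
          linarith
  rcases le_or_gt 0 t with ht | ht
  · -- late jumps
    refine ⟨θσ 1, hθ0 1, hθN 1, hinc 1 (by norm_num) le_rfl, ?_⟩
    intro s hs i hi
    have hr := hrange 1 (by norm_num) le_rfl i (by omega)
    have hsN : (s : ℝ) ≤ N := by exact_mod_cast hs
    have hs0 : (0 : ℝ) ≤ s := Nat.cast_nonneg s
    have hy0 : 0 ≤ (s : ℝ) * g := by positivity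
    have hy1 : (s : ℝ) * g ≤ 1 := by
      have := mul_le_mul_of_nonneg_right hsN hgpos.le
      linarith
    have hbounds : -(β + g) ≤ (s : ℝ) / N - θσ 1 i ∧ (s : ℝ) / N - θσ 1 i ≤ β := by
      rw [hdiv]
      rcases Nat.eq_zero_or_pos i with rfl | hipos
      · have : s = 0 := by omega
        subst this
        rw [hθ0]
        simp only [Nat.cast_zero, zero_mul, sub_zero]
        constructor <;> linarith
      · rcases Nat.lt_or_ge N i with hlt | hge
        · have hi1 : i = N + 1 := by omega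
          have hs1 : s = N := by omega
          subst hi1 hs1
          rw [hθN]
          have : (s : ℝ) * g = 1 := hgN
          rw [this]
          constructor <;> linarith
        · rw [hθi 1 i hipos hge]
          rcases hi with rfl | rfl
          · have e : (i : ℝ) * g - (β + (1 - 2 * β) * (((i : ℝ) - 1 + 1) * g)) =
                -β + 2 * β * ((i : ℝ) * g) := by ring
            rw [e]
            constructor <;> nlinarith
          · push_cast
            have e : (s : ℝ) * g - (β + (1 - 2 * β) * (((s : ℝ) + 1 - 1 + 1) * g)) =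
                -β + 2 * β * ((s : ℝ) * g) - (1 - 2 * β) * g := by ring
            rw [e]
            constructor <;> nlinarith
    refine ⟨hr.1, hr.2, ?_, ?_⟩
    · rw [abs_of_nonneg ht]
      exact mul_le_mul_of_nonneg_right hbounds.2 ht
    · rw [abs_le]
      constructor <;> linarith [hbounds.1, hbounds.2]
  · -- early jumps
    refine ⟨θσ 0, hθ0 0, hθN 0, hinc 0 le_rfl (by norm_num), ?_⟩
    intro s hs i hi
    have hr := hrange 0 le_rfl (by norm_num) i (by omega)
    have hsN : (s : ℝ) ≤ N := by exact_mod_cast hs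
    have hs0 : (0 : ℝ) ≤ s := Nat.cast_nonneg s
    have hy0 : 0 ≤ (s : ℝ) * g := by positivity
    have hy1 : (s : ℝ) * g ≤ 1 := by
      have := mul_le_mul_of_nonneg_right hsN hgpos.le
      linarith
    have hbounds : -β ≤ (s : ℝ) / N - θσ 0 i ∧ (s : ℝ) / N - θσ 0 i ≤ β + g := by
      rw [hdiv]
      rcases Nat.eq_zero_or_pos i with rfl | hipos
      · have : s = 0 := by omega
        subst this
        rw [hθ0]
        simp only [Nat.cast_zero, zero_mul, sub_zero]
        constructor <;> linarith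
      · rcases Nat.lt_or_ge N i with hlt | hge
        · have hi1 : i = N + 1 := by omega
          have hs1 : s = N := by omega
          subst hi1 hs1
          rw [hθN]
          have : (s : ℝ) * g = 1 := hgN
          rw [this]
          constructor <;> linarith
        · rw [hθi 0 i hipos hge]
          rcases hi with rfl | rfl
          · have e : (i : ℝ) * g - (β + (1 - 2 * β) * (((i : ℝ) - 1 + 0) * g)) =
                -β + 2 * β * ((i : ℝ) * g) + (1 - 2 * β) * g := by ring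
            rw [e]
            constructor <;> nlinarith
          · push_cast
            have e : (s : ℝ) * g - (β + (1 - 2 * β) * (((s : ℝ) + 1 - 1 + 0) * g)) =
                -β + 2 * β * ((s : ℝ) * g) := by ring
            rw [e]
            constructor <;> nlinarith
    refine ⟨hr.1, hr.2, ?_, ?_⟩
    · rw [abs_of_neg ht]
      have := mul_le_mul_of_nonpos_right hbounds.1 ht.le
      linarith
    · rw [abs_le]
      constructor <;> linarith [hbounds.1, hbounds.2]

/-- Segments of a window after the first one. -/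
def wsegs (τ : ℝ) (W : E) (θ : ℕ → ℝ) : ℕ → List ι → List (Seg ι E)
  | _, [] => []
  | s, j :: Y => ⟨some j, (θ (s + 2) - θ (s + 1)) * τ, W⟩ :: wsegs τ W θ (s + 1) Y

lemma wsegs_eff (u : ι → E) (d : ℝ) (W : E) (j : ι) :
    eff u ⟨some j, d, W⟩ = u j - d • W := rfl

lemma wsegs_bdd (u : ι → E) (x0 : E) (τ : ℝ) (W : E) (θ : ℕ → ℝ) (X : List ι) (A : ℝ)
    (H : ∀ pre : List ι, pre <+: X →
      ‖x0 + (pre.map u).sum - (θ pre.length * τ) • W‖ ^ 2 ≤ A ∧
      ‖x0 + (pre.map u).sum - (θ (pre.length + 1) * τ) • W‖ ^ 2 ≤ A) :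
    ∀ (Y pre : List ι), X = pre ++ Y →
      Bdd u A (x0 + (pre.map u).sum - (θ (pre.length + 1) * τ) • W)
        (wsegs τ W θ pre.length Y) := by
  intro Y
  induction Y with
  | nil => intro pre _; trivial
  | cons j Y ih =>
    intro pre hX
    have hX' : X = (pre ++ [j]) ++ Y := by simp [hX]
    have hpre : (pre ++ [j]) <+: X := ⟨Y, hX'.symm⟩
    obtain ⟨h1, h2⟩ := H _ hpre
    simp only [List.length_append, List.length_cons, List.length_nil, List.map_append,
      List.map_cons, List.map_nil, List.sum_append, List.sum_cons, List.sum_nil, add_zero,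
      zero_add] at h1 h2
    have hstep : x0 + (pre.map u).sum - (θ (pre.length + 1) * τ) • W +
        eff u ⟨some j, (θ (pre.length + 2) - θ (pre.length + 1)) * τ, W⟩ =
        x0 + ((pre ++ [j]).map u).sum - (θ ((pre ++ [j]).length + 1) * τ) • W := by
      rw [wsegs_eff]
      simp only [List.length_append, List.length_cons, List.length_nil, List.map_append,
        List.map_cons, List.map_nil, List.sum_append, List.sum_cons, List.sum_nil, add_zero,
        zero_add]
      module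
    refine ⟨?_, ?_, ?_⟩
    · have e : x0 + (pre.map u).sum - (θ (pre.length + 1) * τ) • W +
          jv u ⟨some j, (θ (pre.length + 2) - θ (pre.length + 1)) * τ, W⟩ =
          x0 + ((pre.map u).sum + u j) - (θ (pre.length + 1) * τ) • W := by
        simp only [jv]
        abel
      rw [e]
      exact h1
    · rw [hstep]
      simpa using h2
    · rw [hstep]
      have h := ih (pre ++ [j]) hX'
      have hl : (pre ++ [j]).length = pre.length + 1 := by simp
      rw [hl] at h
      rw [hl]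
      exact h

lemma wsegs_endv (u : ι → E) (x0 : E) (τ : ℝ) (W : E) (θ : ℕ → ℝ) :
    ∀ (Y pre : List ι),
      endv u (x0 + (pre.map u).sum - (θ (pre.length + 1) * τ) • W) (wsegs τ W θ pre.length Y) =
        x0 + ((pre ++ Y).map u).sum - (θ (pre.length + Y.length + 1) * τ) • W := by
  intro Y
  induction Y with
  | nil => intro pre; simp [wsegs]
  | cons j Y ih =>
    intro pre
    have hstep : x0 + (pre.map u).sum - (θ (pre.length + 1) * τ) • W +
        eff u ⟨some j, (θ (pre.length + 2) - θ (pre.length + 1)) * τ, W⟩ =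
        x0 + ((pre ++ [j]).map u).sum - (θ ((pre ++ [j]).length + 1) * τ) • W := by
      rw [wsegs_eff]
      simp only [List.length_append, List.length_cons, List.length_nil, List.map_append,
        List.map_cons, List.map_nil, List.sum_append, List.sum_cons, List.sum_nil, add_zero,
        zero_add]
      module
    simp only [wsegs, endv_cons]
    rw [hstep]
    have h := ih (pre ++ [j])
    have hl : (pre ++ [j]).length = pre.length + 1 := by simp
    rw [hl] at h
    rw [hl, h]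
    simp only [List.append_assoc, List.singleton_append, List.length_cons]
    rw [show pre.length + (Y.length + 1) + 1 = pre.length + 1 + Y.length + 1 by omega]

lemma wsegs_sumDur (τ : ℝ) (W : E) (θ : ℕ → ℝ) :
    ∀ (Y : List ι) (s : ℕ), sumDur (wsegs τ W θ s Y) =
      (θ (s + Y.length + 1) - θ (s + 1)) * τ := by
  intro Y
  induction Y with
  | nil => intro s; simp [wsegs]
  | cons j Y ih =>
    intro s
    simp only [wsegs, sumDur_cons, ih, List.length_cons]
    rw [show s + (Y.length + 1) + 1 = s + 1 + Y.length + 1 by omega]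
    rw [show s + 2 = s + 1 + 1 by omega]
    ring

lemma wsegs_tags (τ : ℝ) (W : E) (θ : ℕ → ℝ) :
    ∀ (Y : List ι) (s : ℕ), tags (wsegs τ W θ s Y) = Y := by
  intro Y
  induction Y with
  | nil => intro s; simp [wsegs]
  | cons j Y ih =>
    intro s
    simp only [wsegs, tags_cons, ih]
    simp

lemma wsegs_mem (τ : ℝ) (hτ : 0 ≤ τ) (W : E) (θ : ℕ → ℝ) (β : ℝ) (N : ℕ)
    (hθ : ∀ i, i ≤ N → β ≤ θ (i + 1) - θ i) :
    ∀ (Y : List ι) (s : ℕ), s + Y.length ≤ N → ∀ z ∈ wsegs τ W θ s Y, z.w = W ∧ β * τ ≤ z.dur := by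
  intro Y
  induction Y with
  | nil => intro s _ z hz; simp [wsegs] at hz
  | cons j Y ih =>
    intro s hs z hz
    simp only [wsegs, List.mem_cons] at hz
    rcases hz with rfl | hz
    · refine ⟨rfl, ?_⟩
      simp only
      have := hθ (s + 1) (by simp at hs; omega)
      exact mul_le_mul_of_nonneg_right this hτ
    · exact ih (s + 1) (by simp at hs; omega) z hz

/-- The jump vector of an optional tag. -/
def jvo (u : ι → E) (t : Option ι) : E :=
  match t with
  | some j => u j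
  | none => 0

lemma jv_eq (u : ι → E) (s : Seg ι E) : jv u s = jvo u s.tag := rfl

/-- Norm of a sum of vectors of norm at most one. -/
lemma norm_map_sum_le (u : ι → E) (X : List ι) (h : ∀ j ∈ X, ‖u j‖ ≤ 1) :
    ‖(X.map u).sum‖ ≤ X.length := by
  induction X with
  | nil => simp
  | cons j X ih =>
    simp only [List.map_cons, List.sum_cons, List.length_cons]
    have h1 := norm_add_le (u j) (X.map u).sum
    have h2 := h j (List.mem_cons_self)
    have h3 := ih (fun i hi => h i (List.mem_cons_of_mem _ hi))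
    push_cast
    linarith

lemma map_sub_const_sum (u : ι → E) (e : E) (X : List ι) :
    (X.map (fun j => u j - e)).sum = (X.map u).sum - (X.length : ℝ) • e := by
  induction X with
  | nil => simp
  | cons j X ih =>
    simp only [List.map_cons, List.sum_cons, List.length_cons, ih]
    push_cast
    module

/-- Order of the jumps of a window. -/
lemma window_order [DecidableEq ι] (C : Finset ι) (u : ι → E) (hu : ∀ j ∈ C, ‖u j‖ ≤ 1)
    (X0 : List ι) (hX0 : ∀ j ∈ X0, j ∈ C) (hN : X0 ≠ []) (p0 : E) :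
    ∃ X : List ι, X.Perm X0 ∧ ∀ pre : List ι, pre <+: X →
      inner ℝ p0 ((pre.map u).sum - ((pre.length : ℝ) / X0.length) • (X0.map u).sum) ≤ 0 ∧
      ‖(pre.map u).sum - ((pre.length : ℝ) / X0.length) • (X0.map u).sum‖ ^ 2 ≤
        16 * (50 * Real.log (X0.length : ℝ) + 18 * (C.card : ℝ)) := by
  classical
  set N := X0.length with hNdef
  have hNpos : (0 : ℝ) < N := by
    have : 0 < N := List.length_pos_iff.mpr hN
    exact_mod_cast this
  set D := (X0.map u).sum with hD
  have hDn : ‖D‖ ≤ N := norm_map_sum_le u X0 (fun j hj => hu j (hX0 j hj))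
  set e : E := (1 / (N : ℝ)) • D with he
  have hen : ‖e‖ ≤ 1 := by
    simp only [he]
    rw [norm_smul, Real.norm_eq_abs, abs_of_pos (by positivity)]
    rw [one_div, inv_mul_le_iff₀ hNpos]
    linarith
  let g : ι → E := fun j => u j - e
  let f : ι → E := fun j => (1 / 2 : ℝ) • g j
  let S : Submodule ℝ E := Submodule.span ℝ ((C.image u : Finset E) : Set E)
  have : FiniteDimensional ℝ S := FiniteDimensional.span_of_finite ℝ (Finset.finite_toSet _)
  have hSk : Module.finrank ℝ S ≤ C.card :=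
    (finrank_span_finset_le_card (R := ℝ) (C.image u)).trans Finset.card_image_le
  have huS : ∀ j ∈ C, u j ∈ S := fun j hj =>
    Submodule.subset_span (by simpa using ⟨j, hj, rfl⟩)
  have hDS : ∀ Y : List ι, (∀ j ∈ Y, j ∈ C) → (Y.map u).sum ∈ S := by
    intro Y
    induction Y with
    | nil => intro _; simp
    | cons j Y ih =>
      intro hY
      simp only [List.map_cons, List.sum_cons]
      exact S.add_mem (huS j (hY j List.mem_cons_self))
        (ih (fun i hi => hY i (List.mem_cons_of_mem _ hi)))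
  have heS : e ∈ S := S.smul_mem _ (hDS X0 hX0)
  have hfS : ∀ j ∈ X0, f j ∈ S := fun j hj =>
    S.smul_mem _ (S.sub_mem (huS j (hX0 j hj)) heS)
  have hfn : ∀ j ∈ X0, ‖f j‖ ≤ 1 := by
    intro j hj
    simp only [f, g]
    rw [norm_smul, Real.norm_eq_abs, abs_of_pos (by norm_num)]
    have h1 := norm_sub_le (u j) e
    have h2 := hu j (hX0 j hj)
    linarith
  have hgmap : ∀ Y : List ι, (Y.map g).sum = (Y.map u).sum - (Y.length : ℝ) • e :=
    fun Y => map_sub_const_sum u e Y
  have hNe : (N : ℝ) • e = D := by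
    simp only [he]
    rw [smul_smul]
    have : (N : ℝ) * (1 / (N : ℝ)) = 1 := by field_simp
    rw [this, one_smul]
  have hg0 : (X0.map g).sum = 0 := by
    rw [hgmap, hNe, ← hD, sub_self]
  have hfmap : ∀ Y : List ι, (Y.map f).sum = (1 / 2 : ℝ) • (Y.map g).sum := by
    intro Y
    induction Y with
    | nil => simp
    | cons j Y ih =>
      simp only [List.map_cons, List.sum_cons, ih, smul_add, f]
  have hf0 : (X0.map f).sum = 0 := by rw [hfmap, hg0, smul_zero]
  obtain ⟨X1, hX1, hb1⟩ := order_list S C.card hSk X0 f hfS hfn hf0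
  set B' := 50 * Real.log (X0.length : ℝ) + 18 * (C.card : ℝ) with hB'
  have hB'0 : 0 ≤ B' := by
    have h1 : 0 ≤ Real.log (X0.length : ℝ) := Real.log_natCast_nonneg _
    have h2 : (0 : ℝ) ≤ C.card := Nat.cast_nonneg _
    simp only [hB']
    linarith
  have hI : ∀ pre : List ι, pre <+: X1 → ‖(pre.map g).sum‖ ≤ 2 * Real.sqrt B' := by
    intro pre hpre
    have h1 := hb1 pre hpre
    have h2 : ‖(pre.map f).sum‖ ≤ Real.sqrt B' := Real.le_sqrt_of_sq_le h1
    rw [hfmap, norm_smul, Real.norm_eq_abs, abs_of_pos (by norm_num)] at h2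
    linarith
  obtain ⟨X, hX, hb⟩ := rotate_list X1 g p0 (2 * Real.sqrt B') hI
  have hX10 : (X1.map g).sum = 0 := by
    rw [(hX1.map g).sum_eq, hg0]
  refine ⟨X, hX.trans hX1, ?_⟩
  intro pre hpre
  obtain ⟨h1, h2⟩ := hb pre hpre
  rw [hX10] at h1 h2
  have e1 : (pre.map u).sum - ((pre.length : ℝ) / N) • D = (pre.map g).sum := by
    rw [hgmap]
    congr 1
    simp only [he]
    rw [smul_smul]
    congr 1
    ring
  rw [e1]
  constructor
  · simpa using h1
  · simp only [norm_zero, add_zero] at h2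
    have h3 : ‖(pre.map g).sum‖ ≤ 4 * Real.sqrt B' := by linarith
    have h4 : ‖(pre.map g).sum‖ ^ 2 ≤ (4 * Real.sqrt B') ^ 2 := by
      have := norm_nonneg (pre.map g).sum
      nlinarith
    have h5 : (4 * Real.sqrt B') ^ 2 = 16 * B' := by
      rw [mul_pow, Real.sq_sqrt hB'0]
      norm_num
    linarith

/-- The window lemma. -/
theorem window [DecidableEq ι] (C : Finset ι) (u : ι → E) (hu : ∀ j ∈ C, ‖u j‖ ≤ 1)
    (X0 : List ι) (hX0 : ∀ j ∈ X0, j ∈ C) (hN : X0 ≠ []) (τ : ℝ) (hτ : 0 < τ) (W : E)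
    (tag0 : Option ι) (x p0 p1 q0 q1 : E) (B ε εb : ℝ)
    (hε : ε ≤ 1) (hεb0 : 0 < εb) (hεb : εb ≤ 1 / 4)
    (hx0 : x + jvo u tag0 = p0 + q0)
    (hx1 : p1 + q1 = p0 + q0 + (X0.map u).sum - τ • W)
    (h0 : ‖p0 + q0‖ ^ 2 + ‖q0‖ ^ 2 ≤ B) (h1 : ‖p1 + q1‖ ^ 2 + ‖q1‖ ^ 2 ≤ B)
    (hp : ‖p1 - p0‖ ≤ ε) (hpb : εb * ‖p0‖ ≤ 1 / 2) :
    ∃ Z : List (Seg ι E),
      Bdd u (B + 26 + 96 * (50 * Real.log (X0.length : ℝ) + 18 * (C.card : ℝ))) x Z ∧
      endv u x Z = p1 + q1 ∧ sumDur Z = τ ∧
      (∀ z ∈ Z, z.w = W ∧ εb / (X0.length : ℝ) * τ ≤ z.dur) ∧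
      (tags Z).Perm (tag0.toList ++ X0) := by
  classical
  set N := X0.length with hNdef
  have hN1 : 1 ≤ N := List.length_pos_iff.mpr hN
  have hNpos : (0 : ℝ) < N := by exact_mod_cast hN1
  have hN1' : (1 : ℝ) ≤ N := by exact_mod_cast hN1
  set D := (X0.map u).sum with hD
  have hDn : ‖D‖ ≤ N := norm_map_sum_le u X0 (fun j hj => hu j (hX0 j hj))
  obtain ⟨X, hXp, hXb⟩ := window_order C u hu X0 hX0 hN p0
  rw [← hNdef, ← hD] at hXb
  set β := εb / (N : ℝ) with hβ
  have hβ0 : 0 < β := by positivity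
  have hβN : (N : ℝ) * β = εb := by
    simp only [hβ]
    field_simp
  have hβ1 : (N : ℝ) * β + 2 * β ≤ 1 := by
    have : β ≤ εb := by
      simp only [hβ]
      rw [div_le_iff₀ hNpos]
      nlinarith
    linarith
  obtain ⟨θ, hθ0, hθN, hθinc, hθ⟩ := exists_theta N hN1 β hβ0 hβ1 (inner ℝ p0 D)
  have hXlen : X.length = N := hXp.length_eq
  set x0 := p0 + q0 with hx0def
  set W0 : E := τ • W with hW0
  set G := 16 * (50 * Real.log (X0.length : ℝ) + 18 * (C.card : ℝ)) with hG
  have hpos : ∀ (pre : List ι) (v : ℝ), x0 + (pre.map u).sum - (v * τ) • W =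
      (1 - v) • x0 + v • (p1 + q1) + ((pre.map u).sum - ((pre.length : ℝ) / N) • D) +
        (((pre.length : ℝ) / N) - v) • D := by
    intro pre v
    rw [hx1, mul_smul, ← hW0]
    module
  have hval : ∀ pre : List ι, pre <+: X → ∀ i, (i = pre.length ∨ i = pre.length + 1) →
      ‖x0 + (pre.map u).sum - (θ i * τ) • W‖ ^ 2 ≤ B + 26 + 6 * G := by
    intro pre hpre i hi
    have hlen : pre.length ≤ N := by
      have := hpre.length_le
      omega
    obtain ⟨h2, h3, h4, h5⟩ := hθ pre.length hlen i hi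
    obtain ⟨h6, h7⟩ := hXb pre hpre
    rw [hpos]
    refine window_value (p0 := p0) (p1 := p1) (q0 := q0) (q1 := q1) (ε := ε) (ξ := 1 / 2)
      h2 h3 rfl rfl h0 h1 hp hε h6 ?_ ?_ h7 le_rfl
    · calc ((pre.length : ℝ) / N - θ i) * inner ℝ p0 D ≤ β * |inner ℝ p0 D| := h4
        _ ≤ β * (‖p0‖ * ‖D‖) := by
            refine mul_le_mul_of_nonneg_left (abs_real_inner_le_norm _ _) hβ0.le
        _ ≤ β * (‖p0‖ * N) := by
            refine mul_le_mul_of_nonneg_left ?_ hβ0.le
            exact mul_le_mul_of_nonneg_left hDn (norm_nonneg _)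
        _ = εb * ‖p0‖ := by rw [← hβN]; ring
        _ ≤ 1 / 2 := hpb
    · rw [norm_smul, Real.norm_eq_abs]
      calc |(pre.length : ℝ) / N - θ i| * ‖D‖ ≤ (1 / N + β) * N :=
            mul_le_mul h5 hDn (norm_nonneg _) (by positivity)
        _ = 1 + εb := by
            rw [add_mul, hβ]
            field_simp
        _ ≤ 2 := by linarith
  set A := B + 26 + 6 * G with hA
  have hA' : B + 26 + 96 * (50 * Real.log (X0.length : ℝ) + 18 * (C.card : ℝ)) = A := by
    simp only [hA, hG]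
    ring
  rw [hA']
  have hH : ∀ pre : List ι, pre <+: X →
      ‖x0 + (pre.map u).sum - (θ pre.length * τ) • W‖ ^ 2 ≤ A ∧
      ‖x0 + (pre.map u).sum - (θ (pre.length + 1) * τ) • W‖ ^ 2 ≤ A :=
    fun pre hpre => ⟨hval pre hpre _ (Or.inl rfl), hval pre hpre _ (Or.inr rfl)⟩
  let z0 : Seg ι E := ⟨tag0, (θ (0 + 1) - θ 0) * τ, W⟩
  have hstart : x + eff u z0 = x0 + (([] : List ι).map u).sum -
      (θ (([] : List ι).length + 1) * τ) • W := by
    simp only [eff, jv_eq, z0, List.map_nil, List.sum_nil, List.length_nil, add_zero]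
    have : x + (jvo u tag0 - ((θ (0 + 1) - θ 0) * τ) • W) =
        (x + jvo u tag0) - ((θ (0 + 1) - θ 0) * τ) • W := by abel
    rw [this, hx0, hθ0]
    simp
  refine ⟨z0 :: wsegs τ W θ 0 X, ?_, ?_, ?_, ?_, ?_⟩
  · refine ⟨?_, ?_, ?_⟩
    · have h2 := (hH [] List.nil_prefix).1
      simp only [List.map_nil, List.sum_nil, List.length_nil, hθ0, zero_mul, zero_smul, add_zero,
        sub_zero] at h2
      have : x + jv u z0 = x0 := by
        rw [jv_eq]
        exact hx0
      rw [this]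
      exact h2
    · rw [hstart]
      exact (hH [] List.nil_prefix).2
    · rw [hstart]
      exact wsegs_bdd u x0 τ W θ X A hH X [] rfl
  · rw [endv_cons, hstart]
    have h2 := wsegs_endv u x0 τ W θ X []
    simp only [List.length_nil] at h2 ⊢
    rw [h2]
    simp only [List.nil_append, zero_add, hXlen, hθN, one_mul]
    rw [(hXp.map u).sum_eq, hx1]
  · rw [sumDur_cons, wsegs_sumDur]
    simp only [z0, hXlen, zero_add, hθN, hθ0]
    ring
  · intro z hz
    rcases List.mem_cons.mp hz with rfl | hz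
    · refine ⟨rfl, ?_⟩
      simp only [z0]
      exact mul_le_mul_of_nonneg_right (hθinc 0 (by omega)) hτ.le
    · exact wsegs_mem τ hτ.le W θ β N hθinc X 0 (by omega) z hz
  · rw [tags_cons, wsegs_tags]
    exact hXp.append_left _

end

end Vale.Agent.helper7.St
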